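import Mathlib

/-!
P151 (A), relative Gromov theorem: pigeonhole lemmas for quadratic growth.
-/

namespace Vale.Agent.P151.H36

/-- First pigeonhole. -/
theorem pigeon_unit (C : ℕ) : ∃ J : ℕ, ∀ V : ℕ → ℕ, 1 ≤ V 1 →
    (∀ m, 1 ≤ m → m ≤ J + 1 → V m ≤ C * m ^ 2 * V 1) →
    ∃ j, 1 ≤ j ∧ j ≤ J ∧ 4 * V (j + 1) ≤ 5 * V j := by
  -- choose `J` with `C (J + 1) ^ 2 < (5 / 4) ^ J`
  obtain ⟨J, hJ⟩ : ∃ J : ℕ, (C : ℝ) * ((J : ℝ) + 1) ^ 2 < (5 / 4 : ℝ) ^ J := by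
    have h1 : Filter.Tendsto (fun n : ℕ => (n : ℝ) ^ 2 / (5 / 4 : ℝ) ^ n) Filter.atTop
        (nhds 0) := tendsto_pow_const_div_const_pow_of_one_lt 2 (by norm_num)
    have h2 : ∀ᶠ n : ℕ in Filter.atTop, (n : ℝ) ^ 2 / (5 / 4 : ℝ) ^ n < 1 / (4 * C + 4) :=
      (tendsto_order.1 h1).2 _ (by positivity)
    obtain ⟨n, hn, hn1⟩ := (h2.and (Filter.eventually_ge_atTop 1)).exists
    refine ⟨n, ?_⟩
    rw [div_lt_div_iff₀ (by positivity) (by positivity), one_mul] at hn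
    have h3 : (1 : ℝ) ≤ n := by exact_mod_cast hn1
    have h4 : ((n : ℝ) + 1) ^ 2 ≤ 4 * (n : ℝ) ^ 2 := by nlinarith
    calc (C : ℝ) * ((n : ℝ) + 1) ^ 2 ≤ C * (4 * (n : ℝ) ^ 2) := by gcongr
      _ ≤ (n : ℝ) ^ 2 * (4 * C + 4) := by nlinarith [sq_nonneg (n : ℝ)]
      _ < (5 / 4 : ℝ) ^ n := hn
  refine ⟨J, fun V h1 hV => ?_⟩
  by_contra hcon
  push Not at hcon
  have h2 : ∀ i, i ≤ J → (5 / 4 : ℝ) ^ i * V 1 ≤ V (i + 1) := by
    intro i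
    induction i with
    | zero => intro _; simp
    | succ i ih =>
      intro hi
      have h3 := ih (by omega)
      have h4 := hcon (i + 1) (by omega) hi
      have h5 : 5 * (V (i + 1) : ℝ) ≤ 4 * V (i + 1 + 1) := by exact_mod_cast h4.le
      rw [pow_succ]
      linarith
  have h3 := h2 J le_rfl
  have h4 : (V (J + 1) : ℝ) ≤ C * ((J : ℝ) + 1) ^ 2 * V 1 := by
    exact_mod_cast hV (J + 1) (by omega) le_rfl
  have h5 : (0 : ℝ) < V 1 := by exact_mod_cast h1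
  have h6 := mul_lt_mul_of_pos_right hJ h5
  linarith

/-- Second pigeonhole. -/
theorem pigeon_scale (C J t : ℕ) : ∃ T : ℕ, ∀ V : ℕ → ℕ, Monotone V → 1 ≤ V 1 →
    (∀ m, 1 ≤ m → m ≤ T → V m ≤ C * m ^ 2 * V 1) → ∀ u, 1 ≤ u → u ≤ J →
    ∃ A, t ≤ A ∧ 8 ≤ A ∧ V (A * u + u) ≤ 32 * V (A * u / 2) := by
  set i0 := t + 2 with hi0
  -- `2 ^ i1 > C J ^ 2 32 ^ i0`
  obtain ⟨k, hk⟩ : ∃ k : ℕ, C * J ^ 2 * 16 ^ i0 < 2 ^ k :=
    ⟨C * J ^ 2 * 16 ^ i0, Nat.lt_two_pow_self⟩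
  refine ⟨4 ^ (i0 + k) * J, fun V hm h1 hV u hu huJ => ?_⟩
  by_contra hcon
  push Not at hcon
  have hdiv : ∀ i, 1 ≤ i → 4 ^ i * u / 2 = 2 * 4 ^ (i - 1) * u := by
    intro i hi
    obtain ⟨j, rfl⟩ : ∃ j, i = j + 1 := ⟨i - 1, by omega⟩
    rw [Nat.add_sub_cancel]
    have : 4 ^ (j + 1) * u = (2 * 4 ^ j * u) * 2 := by rw [pow_succ]; ring
    rw [this, Nat.mul_div_cancel _ (by norm_num)]
  have h2 : ∀ i, i ≤ k → 32 ^ i * V (4 ^ i0 * u / 2) ≤ V (4 ^ (i0 + i) * u / 2) := by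
    intro i
    induction i with
    | zero => intro _; simp
    | succ i ih =>
      intro hi
      have h3 := ih (by omega)
      have h5 : i0 + i < 4 ^ (i0 + i) := Nat.lt_pow_self (by norm_num)
      have h6 : 8 ≤ 4 ^ (i0 + i) := by
        calc 8 ≤ 4 ^ 2 := by norm_num
          _ ≤ 4 ^ (i0 + i) := Nat.pow_le_pow_right (by norm_num) (by omega)
      have h4 := hcon (4 ^ (i0 + i)) (by omega) h6
      have h7 : V (4 ^ (i0 + i) * u + u) ≤ V (4 ^ (i0 + (i + 1)) * u / 2) := by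
        apply hm
        rw [hdiv (i0 + (i + 1)) (by omega)]
        have h8 : i0 + (i + 1) - 1 = i0 + i := by omega
        rw [h8]
        have h9 : u ≤ 4 ^ (i0 + i) * u := Nat.le_mul_of_pos_left u (by positivity)
        have h10 : 2 * 4 ^ (i0 + i) * u = 4 ^ (i0 + i) * u + 4 ^ (i0 + i) * u := by ring
        omega
      rw [pow_succ]
      calc 32 ^ i * 32 * V (4 ^ i0 * u / 2) = 32 * (32 ^ i * V (4 ^ i0 * u / 2)) := by ring
        _ ≤ 32 * V (4 ^ (i0 + i) * u / 2) := Nat.mul_le_mul_left _ h3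
        _ ≤ V (4 ^ (i0 + (i + 1)) * u / 2) := h4.le.trans h7
  have h3 := h2 k le_rfl
  have h4 : V 1 ≤ V (4 ^ i0 * u / 2) := by
    apply hm
    rw [hdiv i0 (by omega)]
    exact Nat.mul_pos (by positivity) hu
  have h5 : V (4 ^ (i0 + k) * u / 2) ≤ C * (4 ^ (i0 + k) * J) ^ 2 * V 1 := by
    have h6 : 1 ≤ 4 ^ (i0 + k) * u / 2 := by
      rw [hdiv _ (by omega)]
      exact Nat.mul_pos (by positivity) hu
    have h7 : 4 ^ (i0 + k) * u / 2 ≤ 4 ^ (i0 + k) * J :=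
      (Nat.div_le_self _ _).trans (Nat.mul_le_mul_left _ huJ)
    refine (hV _ h6 h7).trans ?_
    gcongr
  have h6 : 32 ^ k * V 1 ≤ C * (4 ^ (i0 + k) * J) ^ 2 * V 1 :=
    (Nat.mul_le_mul_left _ h4).trans (h3.trans h5)
  have h7 := Nat.le_of_mul_le_mul_right h6 h1
  have h8 : C * (4 ^ (i0 + k) * J) ^ 2 = C * J ^ 2 * 16 ^ i0 * 16 ^ k := by
    have : (16 : ℕ) = 4 ^ 2 := by norm_num
    rw [this, ← pow_mul, ← pow_mul, pow_add]
    ring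
  rw [h8] at h7
  have h9 : (32 : ℕ) ^ k = 2 ^ k * 16 ^ k := by
    rw [← mul_pow]
    norm_num
  rw [h9] at h7
  have h10 := Nat.le_of_mul_le_mul_right h7 (by positivity)
  omega

end Vale.Agent.P151.H36
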