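import Vale.Agent.P151.H36.Coc1

/-!
P151 (A), relative Gromov theorem: unimodularity from subexponential growth, and uniform densities.
-/

namespace Vale.Agent.P151.H36

open GB

noncomputable section

variable {Γ : Type*} [Group Γ] {L : Len Γ}

/-- The double coset of `g`, as a set of left cosets of `K`. -/
def dc (L : Len Γ) (g : Γ) : Set (Γ ⧸ L.K) := {x | ∃ k ∈ L.K, x = ((k * g : Γ) : Γ ⧸ L.K)}

theorem dc_sub (L : Len Γ) (g : Γ) : dc L g ⊆ L.ball (L.ℓ g) := by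
  rintro x ⟨k, hk, rfl⟩
  rw [L.mem_ball, L.K_mul hk]

theorem dc_finite (hL : L.Proper) (g : Γ) : (dc L g).Finite := (hL _).subset (dc_sub L g)

theorem mem_dc_mk {g h : Γ} :
    ((h : Γ) : Γ ⧸ L.K) ∈ dc L g ↔ ∃ k ∈ L.K, ∃ k' ∈ L.K, h = k * g * k' := by
  constructor
  · rintro ⟨k, hk, e⟩
    have h1 : (k * g)⁻¹ * h ∈ L.K := QuotientGroup.eq.1 e.symm
    exact ⟨k, hk, _, h1, by group⟩
  · rintro ⟨k, hk, k', hk', rfl⟩
    refine ⟨k, hk, ?_⟩
    rw [QuotientGroup.eq]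
    have : (k * g * k')⁻¹ * (k * g) = k'⁻¹ := by group
    rw [this]
    exact L.K.inv_mem hk'

theorem dc_symm {g h : Γ} (hh : ((h : Γ) : Γ ⧸ L.K) ∈ dc L g) :
    ((g : Γ) : Γ ⧸ L.K) ∈ dc L h := by
  obtain ⟨k, hk, k', hk', rfl⟩ := mem_dc_mk.1 hh
  exact mem_dc_mk.2 ⟨k⁻¹, L.K.inv_mem hk, k'⁻¹, L.K.inv_mem hk', by group⟩

theorem dc_inv {g h : Γ} (hh : ((h : Γ) : Γ ⧸ L.K) ∈ dc L g) :
    ((h⁻¹ : Γ) : Γ ⧸ L.K) ∈ dc L g⁻¹ := by
  obtain ⟨k, hk, k', hk', rfl⟩ := mem_dc_mk.1 hh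
  exact mem_dc_mk.2 ⟨k'⁻¹, L.K.inv_mem hk', k⁻¹, L.K.inv_mem hk, by group⟩

theorem dc_eq {g h : Γ} (hh : ((h : Γ) : Γ ⧸ L.K) ∈ dc L g) : dc L h = dc L g := by
  obtain ⟨k, hk, k', hk', rfl⟩ := mem_dc_mk.1 hh
  ext x
  constructor
  · rintro ⟨a, ha, rfl⟩
    exact mem_dc_mk.2 ⟨a * k, L.K.mul_mem ha hk, k', hk', by group⟩
  · rintro ⟨a, ha, rfl⟩
    exact mem_dc_mk.2 ⟨a * k⁻¹, L.K.mul_mem ha (L.K.inv_mem hk), k'⁻¹, L.K.inv_mem hk', by group⟩

/-- The finite double coset. -/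
def dcf (hL : L.Proper) (g : Γ) : Finset (Γ ⧸ L.K) := (dc_finite hL g).toFinset

theorem mem_dcf (hL : L.Proper) {g : Γ} {x : Γ ⧸ L.K} : x ∈ dcf hL g ↔ x ∈ dc L g :=
  Set.Finite.mem_toFinset _

theorem smul_mem_dc {g k : Γ} (hk : k ∈ L.K) {x : Γ ⧸ L.K} (hx : x ∈ dc L g) :
    k • x ∈ dc L g := by
  obtain ⟨a, ha, rfl⟩ := hx
  exact ⟨k * a, L.K.mul_mem hk ha, by rw [mul_assoc]; rfl⟩

/-- The relation between a coset and its successors. -/
theorem mem_smul_dc_iff (g : Γ) (x y : Γ ⧸ L.K) :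
    (x.out)⁻¹ • y ∈ dc L g ↔ (y.out)⁻¹ • x ∈ dc L g⁻¹ := by
  have key : ∀ (g : Γ) (x y : Γ ⧸ L.K), (x.out)⁻¹ • y ∈ dc L g → (y.out)⁻¹ • x ∈ dc L g⁻¹ := by
    intro g x y h
    rw [smul_eq] at h ⊢
    have := dc_inv h
    rwa [mul_inv_rev, inv_inv] at this
  constructor
  · exact key g x y
  · intro h
    have := key g⁻¹ y x h
    rwa [inv_inv] at this

open Classical in
/-- The number of paths. -/
def pth (hL : L.Proper) (g : Γ) : ℕ → (Γ ⧸ L.K) → ℕ
  | 0 => fun x => if x = ((1 : Γ) : Γ ⧸ L.K) then 1 else 0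
  | n + 1 => fun y => ∑ z ∈ dcf hL g⁻¹, pth hL g n (y.out • z)

open Classical in
theorem pth_zero (hL : L.Proper) (g : Γ) (x : Γ ⧸ L.K) :
    pth hL g 0 x = if x = ((1 : Γ) : Γ ⧸ L.K) then 1 else 0 := rfl

theorem pth_succ (hL : L.Proper) (g : Γ) (n : ℕ) (y : Γ ⧸ L.K) :
    pth hL g (n + 1) y = ∑ z ∈ dcf hL g⁻¹, pth hL g n (y.out • z) := rfl

theorem pth_le (hL : L.Proper) (g : Γ) (n : ℕ) (y : Γ ⧸ L.K) :
    pth hL g n y ≤ (dcf hL g⁻¹).card ^ n := by
  induction n generalizing y with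
  | zero =>
    rw [pth_zero]
    split_ifs <;> simp
  | succ n ih =>
    rw [pth_succ, pow_succ']
    refine (Finset.sum_le_card_nsmul _ _ _ fun z _ => ih _).trans ?_
    rw [smul_eq_mul]

theorem pth_supp (hL : L.Proper) (g : Γ) (n : ℕ) (y : Γ ⧸ L.K) (hy : n * L.ℓ g < nr L y) :
    pth hL g n y = 0 := by
  induction n generalizing y with
  | zero =>
    rw [pth_zero, if_neg]
    rintro rfl
    rw [nr_mk, L.one] at hy
    omega
  | succ n ih =>
    rw [pth_succ]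
    refine Finset.sum_eq_zero fun z hz => ih _ ?_
    have h1 := dc_sub L _ ((mem_dcf hL).1 hz)
    rw [mem_ball_iff, L.inv] at h1
    have h2 := L.mul (y.out * z.out) (z.out)⁻¹
    rw [mul_inv_cancel_right, L.inv] at h2
    rw [nr_smul_eq]
    have h3 : L.ℓ y.out = nr L y := rfl
    have h4 : L.ℓ z.out = nr L z := rfl
    rw [add_mul, one_mul] at hy
    omega

/-- All paths. -/
theorem pth_sum (hL : L.Proper) (g : Γ) (n : ℕ) :
    ∀ N, n * L.ℓ g ≤ N → ∑ y ∈ bl hL N, pth hL g n y = (dcf hL g).card ^ n := by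
  classical
  induction n with
  | zero =>
    intro N _
    have h1 : ((1 : Γ) : Γ ⧸ L.K) ∈ bl hL N := by
      rw [mem_bl, nr_mk, L.one]
      exact Nat.zero_le _
    rw [pow_zero]
    calc ∑ y ∈ bl hL N, pth hL g 0 y
        = ∑ y ∈ bl hL N, if y = ((1 : Γ) : Γ ⧸ L.K) then 1 else 0 :=
          Finset.sum_congr rfl fun y _ => by rw [pth_zero]
      _ = 1 := by rw [Finset.sum_ite_eq' , if_pos h1]
  | succ n ih =>
    intro N hN
    have hN' : n * L.ℓ g + L.ℓ g ≤ N := by rwa [add_mul, one_mul] at hN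
    -- rewrite the inner sum as a sum over the ball
    have h1 : ∀ y ∈ bl hL N, pth hL g (n + 1) y =
        ∑ x ∈ bl hL (n * L.ℓ g), if (x.out)⁻¹ • y ∈ dcf hL g then pth hL g n x else 0 := by
      intro y _
      rw [pth_succ]
      have h2 : ∑ z ∈ dcf hL g⁻¹, pth hL g n (y.out • z) =
          ∑ x ∈ (dcf hL g⁻¹).image (fun z => y.out • z), pth hL g n x := by
        rw [Finset.sum_image (fun x _ y' _ hxy => MulAction.injective _ hxy)]
      rw [h2, ← Finset.sum_filter]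
      have h3 : ∀ x : Γ ⧸ L.K, x ∈ (dcf hL g⁻¹).image (fun z => y.out • z) ↔
          (x.out)⁻¹ • y ∈ dcf hL g := by
        intro x
        rw [mem_dcf, mem_smul_dc_iff, Finset.mem_image]
        constructor
        · rintro ⟨z, hz, rfl⟩
          rw [inv_smul_smul]
          exact (mem_dcf hL).1 hz
        · intro h
          exact ⟨_, (mem_dcf hL).2 h, smul_inv_smul _ _⟩
      symm
      refine Finset.sum_subset ?_ ?_
      · intro x hx
        rw [Finset.mem_filter] at hx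
        exact (h3 x).2 hx.2
      · intro x hx hx2
        rw [h3 x] at hx
        have h4 : ¬ nr L x ≤ n * L.ℓ g := fun h => hx2 (Finset.mem_filter.2 ⟨(mem_bl hL).2 h, hx⟩)
        exact pth_supp hL g n x (not_le.1 h4)
    rw [Finset.sum_congr rfl h1, Finset.sum_comm, pow_succ, ← ih _ le_rfl, Finset.sum_mul]
    refine Finset.sum_congr rfl fun x hx => ?_
    rw [← Finset.sum_filter, Finset.sum_const, smul_eq_mul, mul_comm]
    congr 1
    have h5 : (bl hL N).filter (fun y => (x.out)⁻¹ • y ∈ dcf hL g) =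
        (dcf hL g).image (fun z => x.out • z) := by
      ext y
      rw [Finset.mem_filter, Finset.mem_image]
      constructor
      · rintro ⟨_, h⟩
        exact ⟨_, h, smul_inv_smul _ _⟩
      · rintro ⟨z, hz, rfl⟩
        refine ⟨?_, by rwa [inv_smul_smul]⟩
        rw [mem_bl]
        have h6 := dc_sub L _ ((mem_dcf hL).1 hz)
        rw [mem_ball_iff] at h6
        have h7 := nr_smul_le L x.out z
        have h8 : L.ℓ x.out = nr L x := rfl
        have h9 := (mem_bl hL).1 hx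
        omega
    rw [h5, Finset.card_image_of_injective _ (MulAction.injective _)]

/-- Growth from a non-trivial modular function. -/
theorem pow_le_ball (hL : L.Proper) (g : Γ) (n : ℕ) :
    (dcf hL g).card ^ n ≤ (bl hL (n * L.ℓ g)).card * (dcf hL g⁻¹).card ^ n := by
  rw [← pth_sum hL g n _ le_rfl]
  refine (Finset.sum_le_card_nsmul _ _ _ fun z _ => pth_le hL g n z).trans ?_
  rw [smul_eq_mul]

theorem dcf_pos (hL : L.Proper) (g : Γ) : 0 < (dcf hL g).card :=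
  Finset.card_pos.2 ⟨(g : Γ ⧸ L.K), (mem_dcf hL).2 ⟨1, L.K.one_mem, by rw [one_mul]⟩⟩

/-- Subexponential growth. -/
def SubE (hL : L.Proper) : Prop := ∀ C : ℕ, ∃ m : ℕ, (bl hL (C * m)).card < 2 ^ m

theorem dcf_le (hL : L.Proper) (hs : SubE hL) (g : Γ) : (dcf hL g).card ≤ (dcf hL g⁻¹).card := by
  by_contra hcon
  rw [not_le] at hcon
  set a := (dcf hL g).card
  set a' := (dcf hL g⁻¹).card
  have ha' : 0 < a' := dcf_pos hL g⁻¹
  -- `(a / a') ^ a' ≥ 2`
  have h1 : 2 * a' ^ a' ≤ a ^ a' := by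
    have h2 : (1 + (a' : ℤ) * 1) ≤ 2 ^ a' := by
      exact one_add_mul_le_pow (by norm_num) a'
    have h3 : (a' + 1) ^ a' ≤ a ^ a' := Nat.pow_le_pow_left hcon _
    refine le_trans ?_ h3
    -- binomial
    have h4 : ((a' : ℤ) + 1) ^ a' ≥ (a' : ℤ) ^ a' + a' * (a' : ℤ) ^ (a' - 1) * 1 := by
      obtain ⟨c, hc⟩ : ∃ c, a' = c + 1 := ⟨a' - 1, by omega⟩
      rw [hc, add_pow]
      rw [Finset.sum_range_succ, Finset.sum_range_succ]
      have h5 : (0 : ℤ) ≤ ∑ x ∈ Finset.range c, ((c + 1 : ℕ) : ℤ) ^ x * 1 ^ (c + 1 - x) *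
          ((c + 1).choose x : ℤ) := Finset.sum_nonneg fun x _ => by positivity
      have h6 : (c + 1).choose c = c + 1 := Nat.choose_succ_self_right c
      have h7 : (c + 1).choose (c + 1) = 1 := Nat.choose_self _
      rw [h6, h7]
      simp only [one_pow, mul_one, Nat.cast_one, Nat.add_sub_cancel] at h5 ⊢
      linarith [mul_comm (((c + 1 : ℕ) : ℤ)) (((c + 1 : ℕ) : ℤ) ^ c)]
    have h8 : (a' : ℤ) * (a' : ℤ) ^ (a' - 1) = (a' : ℤ) ^ a' := by
      rw [← pow_succ', Nat.sub_add_cancel ha']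
    rw [mul_one, h8] at h4
    have h9 : (2 * a' ^ a' : ℤ) ≤ ((a' : ℤ) + 1) ^ a' := by linarith
    exact_mod_cast h9
  obtain ⟨m, hm⟩ := hs (a' * L.ℓ g)
  have h2 := pow_le_ball hL g (a' * m)
  have h3 : a' * m * L.ℓ g = a' * L.ℓ g * m := by ring
  rw [h3] at h2
  have h4 : (2 * a' ^ a') ^ m ≤ (a ^ a') ^ m := Nat.pow_le_pow_left h1 m
  rw [mul_pow, ← pow_mul, ← pow_mul] at h4
  have h5 : 2 ^ m * a' ^ (a' * m) ≤ (bl hL (a' * L.ℓ g * m)).card * a' ^ (a' * m) := h4.trans h2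
  have h6 := Nat.le_of_mul_le_mul_right h5 (pow_pos ha' _)
  omega

/-- **Unimodularity.** -/
theorem dcf_inv (hL : L.Proper) (hs : SubE hL) (g : Γ) :
    (dcf hL g).card = (dcf hL g⁻¹).card := by
  refine le_antisymm (dcf_le hL hs g) ?_
  have := dcf_le hL hs g⁻¹
  rwa [inv_inv] at this

/-- Symmetry of sums over balls. -/
theorem sum_inv (hL : L.Proper) (hs : SubE hL) (n : ℕ) (φ : Γ → ℝ)
    (h1 : ∀ g, ∀ k ∈ L.K, φ (g * k) = φ g) (h2 : ∀ g, ∀ k ∈ L.K, φ (k * g) = φ g) :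
    ∑ x ∈ bl hL n, φ x.out = ∑ x ∈ bl hL n, φ (x.out)⁻¹ := by
  classical
  have hc : ∀ x : Γ ⧸ L.K, (dcf hL (x.out)⁻¹).card ≠ 0 := fun x => (dcf_pos hL _).ne'
  have hsub : ∀ x ∈ bl hL n, dcf hL (x.out)⁻¹ ⊆ bl hL n := by
    intro x hx y hy
    have h3 := dc_sub L _ ((mem_dcf hL).1 hy)
    rw [mem_ball_iff, L.inv] at h3
    exact (mem_bl hL).2 (h3.trans ((mem_bl hL).1 hx))
  have hA : ∀ ψ : Γ → ℝ, ∑ x ∈ bl hL n, ψ x.out = ∑ x ∈ bl hL n, ∑ y ∈ bl hL n,
      if y ∈ dcf hL (x.out)⁻¹ then ψ x.out / (dcf hL (x.out)⁻¹).card else 0 := by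
    intro ψ
    refine Finset.sum_congr rfl fun x hx => ?_
    rw [← Finset.sum_filter, Finset.filter_mem_eq_inter,
      Finset.inter_eq_right.2 (hsub x hx), Finset.sum_const, nsmul_eq_mul]
    have := hc x
    field_simp
  rw [hA φ, hA (fun g => φ g⁻¹), Finset.sum_comm]
  refine Finset.sum_congr rfl fun y _ => Finset.sum_congr rfl fun x _ => ?_
  have hiff : y ∈ dcf hL (x.out)⁻¹ ↔ x ∈ dcf hL (y.out)⁻¹ := by
    have key : ∀ x y : Γ ⧸ L.K, y ∈ dcf hL (x.out)⁻¹ → x ∈ dcf hL (y.out)⁻¹ := by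
      intro x y h
      rw [mem_dcf] at h ⊢
      rw [← QuotientGroup.out_eq' y] at h
      have h3 := dc_inv (dc_symm h)
      rw [inv_inv] at h3
      rw [← QuotientGroup.out_eq' x]
      exact h3
    exact ⟨key x y, key y x⟩
  by_cases h : y ∈ dcf hL (x.out)⁻¹
  · rw [if_pos h, if_pos (hiff.1 h)]
    have h3 := (mem_dcf hL).1 h
    rw [← QuotientGroup.out_eq' y] at h3
    have h4 : dcf hL (x.out)⁻¹ = dcf hL y.out := by
      ext z
      rw [mem_dcf, mem_dcf, dc_eq h3]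
    rw [h4, dcf_inv hL hs y.out]
    congr 1
    obtain ⟨k, hk, k', hk', e⟩ := mem_dc_mk.1 h3
    rw [e, mul_inv_rev, mul_inv_rev, inv_inv, h2 _ _ (L.K.inv_mem hk'), h1 _ _ (L.K.inv_mem hk)]
  · rw [if_neg h, if_neg (fun h' => h (hiff.2 h'))]

/-- The density function of the uniform distribution on a ball. -/
def um (hL : L.Proper) (u : ℕ) (x : Γ ⧸ L.K) : ℝ :=
  if nr L x ≤ u then ((bl hL u).card : ℝ)⁻¹ else 0

theorem um_of_mem (hL : L.Proper) (u : ℕ) {x : Γ ⧸ L.K} (hx : x ∈ bl hL u) :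
    um hL u x = ((bl hL u).card : ℝ)⁻¹ := if_pos ((mem_bl hL).1 hx)

theorem bl_pos (hL : L.Proper) (u : ℕ) : 0 < (bl hL u).card :=
  Finset.card_pos.2 ⟨((1 : Γ) : Γ ⧸ L.K), by
    rw [mem_bl, nr_mk, L.one]; exact Nat.zero_le _⟩

/-- The uniform density on a ball. -/
def unif (hL : L.Proper) (hs : SubE hL) (u : ℕ) : Dens hL u where
  m := um hL u
  nonneg := by
    intro x
    rw [um]
    split_ifs
    · positivity
    · exact le_rfl
  supp := by
    intro x hx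
    rw [um, if_neg (not_le.2 hx)]
  one := by
    rw [Finset.sum_congr rfl fun x hx => um_of_mem hL u hx, Finset.sum_const, nsmul_eq_mul]
    have h3 : (0 : ℝ) < (bl hL u).card := by exact_mod_cast bl_pos hL u
    field_simp
  inv := by
    intro k hk x
    rw [um, nr_smul_K L hk, um]
  symm := by
    intro φ h1 h2
    have h3 : ∀ (ψ : Γ → ℝ), ∑ x ∈ bl hL u, um hL u x * ψ x.out =
        ((bl hL u).card : ℝ)⁻¹ * ∑ x ∈ bl hL u, ψ x.out := by
      intro ψ
      rw [Finset.mul_sum]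
      exact Finset.sum_congr rfl fun x hx => by rw [um_of_mem hL u hx]
    rw [h3 φ, sum_inv hL hs u φ h1 h2, ← h3 (fun g => φ g⁻¹)]

theorem unif_m (hL : L.Proper) (hs : SubE hL) (u : ℕ) : (unif hL hs u).m = um hL u := rfl

/-- The overlap of the uniform density with its translates. -/
theorem unif_overlap (hL : L.Proper) (hs : SubE hL) (u d : ℕ)
    (h : 2 * (bl hL (u + d)).card ≤ 3 * (bl hL u).card) (g : Γ) (hg : L.ℓ g ≤ d) :
    ∑ x ∈ bl hL (u + d), |(unif hL hs u).m (g⁻¹ • x) - (unif hL hs u).m x| ≤ 1 := by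
  classical
  rw [unif_m]
  have h0 : (0 : ℝ) < (bl hL u).card := by exact_mod_cast bl_pos hL u
  set c : ℝ := ((bl hL u).card : ℝ)⁻¹ with hc
  have hc0 : 0 < c := by positivity
  have hb : (bl hL u) ⊆ bl hL (u + d) := bl_mono hL (Nat.le_add_right _ _)
  -- pointwise: `|a - b| ≤ (c - a) + (c - b)` on values `0, c`
  have h1 : ∀ x : Γ ⧸ L.K, |um hL u (g⁻¹ • x) - um hL u x| ≤
      (c - um hL u (g⁻¹ • x)) + (c - um hL u x) := by
    intro x
    have h2 : ∀ y : Γ ⧸ L.K, um hL u y = c ∨ um hL u y = 0 := by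
      intro y
      rw [um]
      split_ifs
      · exact Or.inl rfl
      · exact Or.inr rfl
    rcases h2 (g⁻¹ • x) with h3 | h3 <;> rcases h2 x with h4 | h4 <;> rw [h3, h4]
    · simp
    · rw [sub_zero, sub_self, zero_add, abs_of_pos hc0]
    · rw [zero_sub, sub_self, add_zero, abs_neg, abs_of_pos hc0, sub_zero]
    · rw [sub_zero, abs_zero]
      positivity
  refine (Finset.sum_le_sum fun x _ => h1 x).trans ?_
  rw [Finset.sum_add_distrib, Finset.sum_sub_distrib, Finset.sum_sub_distrib, Finset.sum_const,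
    nsmul_eq_mul]
  have h2 : ∑ x ∈ bl hL (u + d), um hL u (g⁻¹ • x) = 1 := by
    rw [sum_trans hL u (u + d) (fun x => um hL u x) g (by omega)
      (fun x hx => (unif hL hs u).supp x hx)]
    exact (unif hL hs u).one
  have h3 : ∑ x ∈ bl hL (u + d), um hL u x = 1 := by
    rw [← (unif hL hs u).one]
    symm
    refine Finset.sum_subset hb ?_
    intro x _ hx
    rw [mem_bl, not_le] at hx
    exact (unif hL hs u).supp x hx
  rw [h2, h3]
  have h4 : 2 * ((bl hL (u + d)).card : ℝ) ≤ 3 * (bl hL u).card := by exact_mod_cast h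
  have h5 : ((bl hL (u + d)).card : ℝ) * c ≤ 3 / 2 := by
    rw [hc, ← div_eq_mul_inv, div_le_iff₀ h0]
    linarith
  linarith

end

end Vale.Agent.P151.H36
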