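import Vale.Agent.P151.H36.CocL2
import Vale.Agent.P151.H36.Uni
import Vale.Agent.P151.H36.Pig

/-!
P151 (A), relative Gromov theorem, block A0: a window of quadratic growth has a cocycle.
-/

universe u

open Filter Topology

namespace Vale.Agent.P151.H36

open GB

/-- The conclusion of blocks A0 and A for one window `D`: `u` is the unit, `A` the scale, `b` the
cocycle, `J` bounds the unit. -/
structure WCoc {Γ : Type u} [Group Γ] {D : Len Γ} (hD : D.Proper) (J u A : ℕ) (b : Γ → L2K D) :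
    Prop where
  u_pos : 1 ≤ u
  u_le : u ≤ J
  A_pos : 1 ≤ A
  ratio : 4 * (bl hD (u + 1)).card ≤ 5 * (bl hD u).card
  coc : ∀ g h, b (g * h) = b g + lamK D g (b h)
  ker : ∀ k ∈ D.K, b k = 0
  lip : ∀ g, ‖b g‖ ≤ 650 * D.ℓ g
  vis : ∀ g, 4 * (A * u) < D.ℓ g → (A : ℝ) ≤ ‖b g‖
  drift : ‖∑ x ∈ bl hD u, um hD u x • b x.out‖ ≤ 2048 / A
  energy_le : ∑ x ∈ bl hD u, um hD u x * ‖b x.out‖ ^ 2 ≤ 12800
  energy_ge : 1 / (16 * (1 + 2 * (J : ℝ)) ^ 2) ≤ ∑ x ∈ bl hD u, um hD u x * ‖b x.out‖ ^ 2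

theorem exists_far {Γ : Type u} [Group Γ] {D : Len Γ} (hD : D.Proper) (hinf : Infinite (Γ ⧸ D.K))
    (n : ℕ) : ∃ g, n < D.ℓ g := by
  by_contra hcon
  push Not at hcon
  have h1 : (Set.univ : Set (Γ ⧸ D.K)) ⊆ D.ball n := by
    intro x _
    rw [mem_ball_iff]
    exact hcon _
  exact Set.infinite_univ ((hD n).subset h1)

/-- **A0 + A**, one window. -/
theorem window_cocycle (C : ℕ) : ∃ J : ℕ, ∀ t : ℕ, ∃ T : ℕ, ∀ (Γ : Type u) [Group Γ] (D : Len Γ)
    (hD : D.Proper), SubE hD → Split D → Infinite (Γ ⧸ D.K) →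
    (∀ m, 1 ≤ m → m ≤ T → (bl hD m).card ≤ C * m ^ 2 * (bl hD 1).card) →
    ∃ (u A : ℕ) (b : Γ → L2K D), t ≤ A ∧ WCoc hD J u A b := by
  obtain ⟨J, hJ⟩ := pigeon_unit C
  refine ⟨J, fun t => ?_⟩
  obtain ⟨T0, hT0⟩ := pigeon_scale C J t
  refine ⟨max T0 (J + 1), fun Γ _ D hD hs hsp hinf hgrow => ?_⟩
  have hV1 : 1 ≤ (bl hD 1).card := bl_pos hD 1
  have hmono : Monotone (fun n => (bl hD n).card) := fun m n hmn =>
    Finset.card_le_card (bl_mono hD hmn)
  obtain ⟨j, hj1, hjJ, hj⟩ := hJ (fun n => (bl hD n).card) hV1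
    (fun m h1 h2 => hgrow m h1 (h2.trans (le_max_right _ _)))
  obtain ⟨A, htA, hA8, hA⟩ := hT0 (fun n => (bl hD n).card) hmono hV1
    (fun m h1 h2 => hgrow m h1 (h2.trans (le_max_left _ _))) j hj1 hjJ
  have hj' : 4 * (bl hD (j + 1)).card ≤ 5 * (bl hD j).card := hj
  have ho : ∀ g, D.ℓ g ≤ 1 → ∑ x ∈ bl hD (j + 1),
      |(unif hD hs j).m (g⁻¹ • x) - (unif hD hs j).m x| ≤ 1 :=
    fun g hg => unif_overlap hD hs j 1 (by omega) g hg
  obtain ⟨b, hb, hbK, hlip, -, hfar, hdrift, hle, hge⟩ := exists_cocycle_regK (L := D) (hL := hD)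
    hsp (unif hD hs j) hj1 1 le_rfl ho j (by simp) A 32 (by norm_num)
    (by
      have : (8 : ℝ) ≤ A := by exact_mod_cast hA8
      nlinarith)
    (by exact_mod_cast hA)
  rw [unif_m] at hdrift hle hge
  have hA0 : (0 : ℝ) < A := by
    have : 0 < A := by omega
    exact_mod_cast this
  refine ⟨j, A, b, htA, hj1, hjJ, by omega, hj', hb, hbK, ?_, ?_, ?_, ?_, ?_⟩
  · intro g
    rcases Nat.eq_zero_or_pos (D.ℓ g) with h | h
    · rw [hbK g h, norm_zero, h]
      simp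
    · have h1 : (1 : ℝ) ≤ D.ℓ g := by exact_mod_cast h
      have h2 : √32 ≤ 5.7 := by
        rw [Real.sqrt_le_left (by norm_num)]
        norm_num
      refine (hlip g).trans ?_
      calc 57 * √32 * (1 + (D.ℓ g : ℝ) / (1 : ℕ)) ≤ 57 * 5.7 * (2 * D.ℓ g) := by
            rw [Nat.cast_one, div_one]
            gcongr
            linarith
        _ ≤ 650 * D.ℓ g := by linarith
  · intro g hgA
    rw [hfar g hgA]
    have h4 : (1 : ℝ) ≤ √2 := Real.one_le_sqrt.2 (by norm_num)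
    nlinarith
  · refine hdrift.trans (le_of_eq ?_)
    norm_num
  · refine hle.trans (le_of_eq ?_)
    norm_num
  · refine le_trans ?_ (hge (exists_far hD hinf _))
    have h1 : (j : ℝ) ≤ J := by exact_mod_cast hjJ
    gcongr

/-- **A0 + A**, for a sequence of windows. -/
theorem windows_seq {Γ : Type u} [Group Γ] (D : ℕ → Len Γ) (hD : ∀ n, (D n).Proper)
    (hs : ∀ n, SubE (hD n)) (hsp : ∀ n, Split (D n)) (hinf : ∀ n, Infinite (Γ ⧸ (D n).K)) (C : ℕ)
    (hg : ∀ n m, 1 ≤ m → m ≤ n → (bl (hD n) m).card ≤ C * m ^ 2 * (bl (hD n) 1).card) :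
    ∃ (J : ℕ) (u A : ℕ → ℕ) (b : ∀ n, Γ → L2K (D n)), Tendsto A atTop atTop ∧
      ∀ᶠ n in atTop, WCoc (hD n) J (u n) (A n) (b n) := by
  obtain ⟨J, hJ⟩ := window_cocycle.{u} C
  choose T hT using hJ
  -- the best available scale at level `n`
  have key : ∀ n : ℕ, ∃ (u A : ℕ) (b : Γ → L2K (D n)),
      ∀ t, t ≤ n → (∀ s, s ≤ t → T s ≤ n) → t ≤ A ∧ WCoc (hD n) J u A b := by
    intro n
    classical
    by_cases h0 : T 0 ≤ n
    · -- the largest good `t`
      let P : ℕ → Prop := fun t => ∀ s, s ≤ t → T s ≤ n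
      have hP0 : P 0 := by
        intro s hs0
        rw [Nat.le_zero.1 hs0]
        exact h0
      set t := Nat.findGreatest P n with ht
      have hPt : P t := Nat.findGreatest_spec (Nat.zero_le n) hP0
      obtain ⟨u, A, b, h1, h2⟩ := hT t Γ (D n) (hD n) (hs n) (hsp n) (hinf n)
        (fun m hm1 hm2 => hg n m hm1 (hm2.trans (hPt t le_rfl)))
      refine ⟨u, A, b, fun t' ht' hP' => ⟨?_, h2⟩⟩
      exact (Nat.le_findGreatest ht' hP').trans h1
    · exact ⟨0, 0, fun _ => 0, fun t _ h => absurd (h 0 (Nat.zero_le t)) h0⟩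
  choose u A b hu using key
  have hev : ∀ t, ∀ᶠ n in atTop, t ≤ A n ∧ WCoc (hD n) J (u n) (A n) (b n) := by
    intro t
    filter_upwards [eventually_ge_atTop (t + ∑ s ∈ Finset.range (t + 1), T s)] with n hn
    refine hu n t (by omega) ?_
    intro s hst
    have h1 : T s ≤ ∑ s ∈ Finset.range (t + 1), T s :=
      Finset.single_le_sum (f := T) (fun _ _ => Nat.zero_le _) (Finset.mem_range.2 (by omega))
    omega
  refine ⟨J, u, A, b, ?_, (hev 0).mono fun n hn => hn.2⟩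
  rw [tendsto_atTop]
  exact fun t => (hev t).mono fun n hn => hn.1

end Vale.Agent.P151.H36
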