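import Vale.Agent.P151.H36.Coc1

/-!
P151 (A), relative Gromov theorem, block A: the cocycle of a window with the doubling property.
-/

open Polynomial

namespace Vale.Agent.P151.H36

open GB

noncomputable section

variable {Γ : Type*} [Group Γ] {L : Len Γ} {hL : L.Proper} {u : ℕ}
variable {E : Type*} [NormedAddCommGroup E] [InnerProductSpace ℝ E]

/-- Every element splits. -/
def Split (L : Len Γ) : Prop :=
  ∀ g a b, L.ℓ g ≤ a + b → ∃ x y, g = x * y ∧ L.ℓ x ≤ a ∧ L.ℓ y ≤ b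

/-- The cone function. -/
def cone (L : Len Γ) (R : ℕ) (x : Γ ⧸ L.K) : ℝ := ((R - nr L x : ℕ) : ℝ)

theorem cone_eq_zero (R : ℕ) (x : Γ ⧸ L.K) (h : R < nr L x) : cone L R x = 0 := by
  rw [cone, Nat.sub_eq_zero_of_le h.le, Nat.cast_zero]

theorem cone_lip (R : ℕ) (g : Γ) (x : Γ ⧸ L.K) :
    (cone L R (g⁻¹ • x) - cone L R x) ^ 2 ≤ (L.ℓ g : ℝ) ^ 2 := by
  have h1 := nr_smul_le L g⁻¹ x
  have h2 := nr_smul_le L g (g⁻¹ • x)
  rw [smul_inv_smul] at h2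
  rw [L.inv] at h1
  have h3 : (R - nr L (g⁻¹ • x) : ℕ) ≤ (R - nr L x : ℕ) + L.ℓ g := by omega
  have h4 : (R - nr L x : ℕ) ≤ (R - nr L (g⁻¹ • x) : ℕ) + L.ℓ g := by omega
  have h5 : cone L R (g⁻¹ • x) ≤ cone L R x + L.ℓ g := by
    unfold cone
    exact_mod_cast h3
  have h6 : cone L R x ≤ cone L R (g⁻¹ • x) + L.ℓ g := by
    unfold cone
    exact_mod_cast h4
  apply sq_le_sq'
  · linarith
  · linarith

theorem cone_smul_K (R : ℕ) {k : Γ} (hk : k ∈ L.K) (x : Γ ⧸ L.K) :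
    cone L R (k • x) = cone L R x := by
  rw [cone, nr_smul_K L hk]
  rfl

/-- The cone vector. -/
def cv (hL : L.Proper) (ρ : Rep L E) (R : ℕ) : E := vc hL ρ R (cone L R)

theorem cv_mem_fx (ρ : Rep L E) (R : ℕ) : cv hL ρ R ∈ fx L ρ.lam := by
  intro k hk
  have h0 : L.ℓ k = 0 := hk
  rw [cv, lam_vc ρ (N := R) _ (fun x hx => cone_eq_zero R x hx) k (by omega)]
  refine Finset.sum_congr rfl fun x _ => ?_
  change cone L R (k⁻¹ • x) • ρ.δ x = _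
  rw [cone_smul_K R (L.K.inv_mem hk)]

theorem norm_lam_cv_sub_sq (ρ : Rep L E) (R : ℕ) (g : Γ) :
    ‖ρ.lam g (cv hL ρ R) - cv hL ρ R‖ ^ 2 ≤ (L.ℓ g : ℝ) ^ 2 * (bl hL (R + L.ℓ g)).card := by
  have h1 : ρ.lam g (cv hL ρ R) = vc hL ρ (R + L.ℓ g) (fun x => cone L R (g⁻¹ • x)) :=
    lam_vc ρ _ (fun x hx => cone_eq_zero R x hx) g le_rfl
  have h2 : cv hL ρ R = vc hL ρ (R + L.ℓ g) (cone L R) :=
    (vc_mono ρ (Nat.le_add_right _ _) _ fun x hx => cone_eq_zero R x hx).symm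
  have h3 : ρ.lam g (cv hL ρ R) - cv hL ρ R =
      vc hL ρ (R + L.ℓ g) (fun x => cone L R (g⁻¹ • x) - cone L R x) := by
    rw [h1]
    conv_lhs => rw [h2]
    rw [vc, vc, vc, ← Finset.sum_sub_distrib]
    exact Finset.sum_congr rfl fun x _ => (sub_smul _ _ _).symm
  rw [h3, norm_vc_sq]
  calc ∑ x ∈ bl hL (R + L.ℓ g), (cone L R (g⁻¹ • x) - cone L R x) ^ 2
      ≤ ∑ _x ∈ bl hL (R + L.ℓ g), (L.ℓ g : ℝ) ^ 2 :=
        Finset.sum_le_sum fun x _ => cone_lip R g x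
    _ = (L.ℓ g : ℝ) ^ 2 * (bl hL (R + L.ℓ g)).card := by
        rw [Finset.sum_const, nsmul_eq_mul, mul_comm]

theorem norm_cv_sq (ρ : Rep L E) (R : ℕ) :
    ((R : ℝ) / 2) ^ 2 * (bl hL (R / 2)).card ≤ ‖cv hL ρ R‖ ^ 2 := by
  rw [cv, norm_vc_sq]
  calc ((R : ℝ) / 2) ^ 2 * (bl hL (R / 2)).card
      = ∑ _x ∈ bl hL (R / 2), ((R : ℝ) / 2) ^ 2 := by
        rw [Finset.sum_const, nsmul_eq_mul, mul_comm]
    _ ≤ ∑ x ∈ bl hL (R / 2), cone L R x ^ 2 := by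
        refine Finset.sum_le_sum fun x hx => ?_
        have h1 := (mem_bl hL).1 hx
        have h2 : R ≤ 2 * (R - nr L x) := by omega
        have h3 : (R : ℝ) ≤ 2 * cone L R x := by
          unfold cone
          exact_mod_cast h2
        have h4 : (0 : ℝ) ≤ R := Nat.cast_nonneg R
        apply pow_le_pow_left₀ (by positivity)
        linarith
    _ ≤ ∑ x ∈ bl hL R, cone L R x ^ 2 :=
        Finset.sum_le_sum_of_subset_of_nonneg (bl_mono hL (Nat.div_le_self _ _))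
          fun _ _ _ => sq_nonneg _

/-- The Rayleigh quotient of the cone vector. -/
theorem cv_rayleigh (ρ : Rep L E) (m : Dens hL u) (R : ℕ) (hR : 1 ≤ R) (D : ℝ)
    (hD : ((bl hL (R + u)).card : ℝ) ≤ D * (bl hL (R / 2)).card) :
    inner ℝ (cv hL ρ R - av m ρ.lam (cv hL ρ R)) (cv hL ρ R) ≤
      2 * D * (u : ℝ) ^ 2 / (R : ℝ) ^ 2 * ‖cv hL ρ R‖ ^ 2 := by
  have hR0 : (0 : ℝ) < R := by exact_mod_cast hR
  have h1 := energy m ρ.lam (cv hL ρ R)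
  have h2 : ∑ x ∈ bl hL u, m.m x * ‖ρ.lam x.out (cv hL ρ R) - cv hL ρ R‖ ^ 2 ≤
      (u : ℝ) ^ 2 * (bl hL (R + u)).card := by
    calc ∑ x ∈ bl hL u, m.m x * ‖ρ.lam x.out (cv hL ρ R) - cv hL ρ R‖ ^ 2
        ≤ ∑ x ∈ bl hL u, m.m x * ((u : ℝ) ^ 2 * (bl hL (R + u)).card) := by
          refine Finset.sum_le_sum fun x hx => mul_le_mul_of_nonneg_left ?_ (m.nonneg x)
          have h3 : L.ℓ x.out ≤ u := (mem_bl hL).1 hx
          refine (norm_lam_cv_sub_sq ρ R x.out).trans ?_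
          have h4 : (bl hL (R + L.ℓ x.out)).card ≤ (bl hL (R + u)).card :=
            Finset.card_le_card (bl_mono hL (by omega))
          have h5 : (L.ℓ x.out : ℝ) ≤ u := by exact_mod_cast h3
          have h6 : ((bl hL (R + L.ℓ x.out)).card : ℝ) ≤ (bl hL (R + u)).card := by
            exact_mod_cast h4
          gcongr
      _ = (u : ℝ) ^ 2 * (bl hL (R + u)).card := by
          rw [← Finset.sum_mul, m.one, one_mul]
  have h3 := norm_cv_sq (hL := hL) ρ R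
  have h4 : (u : ℝ) ^ 2 * (bl hL (R + u)).card ≤
      4 * D * (u : ℝ) ^ 2 / (R : ℝ) ^ 2 * ‖cv hL ρ R‖ ^ 2 := by
    have hDn : 0 ≤ D := by
      by_contra hneg
      rw [not_le] at hneg
      have h5 : (1 : ℝ) ≤ (bl hL (R + u)).card := by
        have : 0 < (bl hL (R + u)).card := Finset.card_pos.2 ⟨((1 : Γ) : Γ ⧸ L.K), by
          rw [mem_bl, nr_mk, L.one]; exact Nat.zero_le _⟩
        exact_mod_cast this
      have h6 : D * ((bl hL (R / 2)).card : ℝ) ≤ 0 :=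
        mul_nonpos_of_nonpos_of_nonneg hneg.le (Nat.cast_nonneg _)
      linarith
    calc (u : ℝ) ^ 2 * (bl hL (R + u)).card ≤ (u : ℝ) ^ 2 * (D * (bl hL (R / 2)).card) := by
          gcongr
      _ = 4 * D * (u : ℝ) ^ 2 / (R : ℝ) ^ 2 * (((R : ℝ) / 2) ^ 2 * (bl hL (R / 2)).card) := by
          field_simp
          ring
      _ ≤ _ := by gcongr
  have h5 : 2 * inner ℝ (cv hL ρ R - av m ρ.lam (cv hL ρ R)) (cv hL ρ R) ≤
      4 * D * (u : ℝ) ^ 2 / (R : ℝ) ^ 2 * ‖cv hL ρ R‖ ^ 2 := h1 ▸ h2.trans h4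
  have h6 : 4 * D * (u : ℝ) ^ 2 / (R : ℝ) ^ 2 * ‖cv hL ρ R‖ ^ 2 =
      2 * (2 * D * (u : ℝ) ^ 2 / (R : ℝ) ^ 2 * ‖cv hL ρ R‖ ^ 2) := by ring
  rw [h6] at h5
  linarith

/-- The smoothed vector. -/
theorem exists_smooth_vec (ρ : Rep L E) (m : Dens hL u) (hu : 1 ≤ u) (A n : ℕ) (hn : 1 ≤ n)
    (D : ℝ) (hD1 : 1 ≤ D) (hAn : 2 * D * (n : ℝ) ^ 2 ≤ (A : ℝ) ^ 2)
    (hD : ((bl hL (A * u + u)).card : ℝ) ≤ D * (bl hL (A * u / 2)).card) :
    ∃ v : E, v ∈ fx L ρ.lam ∧ v ∈ sp ρ (2 * (A * u)) ∧ 0 < ‖v‖ ∧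
      ‖v - av m ρ.lam v‖ ≤ 8 / (n : ℝ) ^ 2 * ‖v‖ ∧
      inner ℝ (v - av m ρ.lam v) v ≤ 25 / (n : ℝ) ^ 2 * ‖v‖ ^ 2 := by
  have hn0 : (0 : ℝ) < n := by exact_mod_cast hn
  have hnn : (0 : ℝ) < (n : ℝ) ^ 2 := by positivity
  have hA2 : (0 : ℝ) < (A : ℝ) ^ 2 := lt_of_lt_of_le (by positivity) hAn
  have hA0 : 0 < A := by
    rcases Nat.eq_zero_or_pos A with h | h
    · rw [h] at hA2; simp at hA2
    · exact h
  have hnA : n ≤ A := by
    have h1 : (n : ℝ) ^ 2 ≤ (A : ℝ) ^ 2 := by nlinarith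
    exact_mod_cast (le_of_sq_le_sq h1 (Nat.cast_nonneg A))
  have hu0 : (0 : ℝ) < u := by exact_mod_cast hu
  have hR : 1 ≤ A * u := Nat.mul_pos hA0 hu
  set c : E := cv hL ρ (A * u) with hc
  have hcR := cv_rayleigh ρ m (A * u) hR D hD
  rw [← hc] at hcR
  have hcf : c ∈ fx L ρ.lam := cv_mem_fx ρ _
  let f : fx L ρ.lam := ⟨c, hcf⟩
  have hcpos : 0 < ‖c‖ ^ 2 := by
    refine lt_of_lt_of_le ?_ (norm_cv_sq (hL := hL) ρ (A * u))
    have : 0 < (bl hL (A * u / 2)).card := Finset.card_pos.2 ⟨((1 : Γ) : Γ ⧸ L.K), by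
      rw [mem_bl, nr_mk, L.one]; exact Nat.zero_le _⟩
    have h7 : (0 : ℝ) < ((A * u : ℕ) : ℝ) := by exact_mod_cast hR
    positivity
  have hcR2 : inner ℝ (f - avF m ρ.lam f) f ≤ ‖f‖ ^ 2 / (n : ℝ) ^ 2 := by
    change inner ℝ (c - av m ρ.lam c) c ≤ ‖c‖ ^ 2 / (n : ℝ) ^ 2
    refine hcR.trans ?_
    have h1 : 2 * D * (u : ℝ) ^ 2 / ((A * u : ℕ) : ℝ) ^ 2 = 2 * D / (A : ℝ) ^ 2 := by
      push_cast
      field_simp
    rw [h1, div_mul_eq_mul_div, div_le_div_iff₀ hA2 hnn]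
    nlinarith
  obtain ⟨F, hF, h1, h2, h3⟩ := smooth (avF m ρ.lam)
    (fun x y => av_symm m ρ.lam x y x.2 y.2) (fun x => norm_av_le m ρ.lam x) f n hn hcR2
  have hmem := aeval_mem (avF m ρ.lam)
    (fun j => (sp ρ (A * u + j * u)).comap (fx L ρ.lam).subtype)
    (fun i j hij => Submodule.comap_mono (sp_mono ρ (by
      have := Nat.mul_le_mul_right u hij
      omega)))
    (fun j x hx => by
      have h4 := av_mem_sp m ρ _ _ hx
      have h5 : A * u + j * u + u = A * u + (j + 1) * u := by ring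
      rw [h5] at h4
      exact h4) f (by
      change c ∈ sp ρ (A * u + 0 * u)
      rw [zero_mul, add_zero]
      exact vc_mem_sp ρ _ _) F (n - 1) hF
  set v := aeval (avF m ρ.lam) F f with hv
  have hmem2 : (v : E) ∈ sp ρ (2 * (A * u)) := by
    have h4 : (v : E) ∈ sp ρ (A * u + (n - 1) * u) := hmem
    refine sp_mono ρ ?_ h4
    have h5 : (n - 1) * u ≤ A * u := Nat.mul_le_mul_right u (by omega)
    omega
  have e1 : ‖f‖ = ‖c‖ := rfl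
  have hcp : 0 < ‖c‖ := by
    rcases (norm_nonneg c).eq_or_lt with h | h
    · rw [← h] at hcpos
      simp at hcpos
    · exact h
  rw [e1] at h1 h2 h3
  have e2 : ‖v‖ = ‖(v : E)‖ := rfl
  have hvpos : 0 < ‖v‖ := by
    rcases (norm_nonneg v).eq_or_lt with h | h
    · rw [← h] at h1
      nlinarith
    · exact h
  have hcv : ‖c‖ ≤ 4 * ‖v‖ := by
    apply le_of_sq_le_sq
    · nlinarith
    · positivity
  refine ⟨v, v.2, hmem2, hvpos, ?_, ?_⟩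
  · have h4 : ‖v - avF m ρ.lam v‖ ≤ 8 / (n : ℝ) ^ 2 * ‖v‖ := by
      refine h2.trans ?_
      calc 2 / (n : ℝ) ^ 2 * ‖c‖ ≤ 2 / (n : ℝ) ^ 2 * (4 * ‖v‖) := by gcongr
        _ = 8 / (n : ℝ) ^ 2 * ‖v‖ := by ring
    exact h4
  · have h4 : inner ℝ (v - avF m ρ.lam v) v ≤ 25 / (n : ℝ) ^ 2 * ‖v‖ ^ 2 := by
      refine h3.trans ?_
      calc 2 / (n : ℝ) ^ 2 * ‖c‖ ^ 2 ≤ 2 / (n : ℝ) ^ 2 * (25 / 2 * ‖v‖ ^ 2) := by
            gcongr
            linarith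
        _ = 25 / (n : ℝ) ^ 2 * ‖v‖ ^ 2 := by ring
    exact h4

/-- The overlap argument. -/
theorem norm_le_of_overlap (ρ : Rep L E) (m : Dens hL u) (b : Γ → E)
    (hb : ∀ g h, b (g * h) = b g + ρ.lam g (b h)) (hbK : ∀ k ∈ L.K, b k = 0) (g : Γ) (d : ℕ)
    (hg : L.ℓ g ≤ d) (ho : ∑ x ∈ bl hL (u + d), |m.m (g⁻¹ • x) - m.m x| ≤ 1) :
    ‖b g‖ ^ 2 ≤ 8 * ∑ x ∈ bl hL u, m.m x * ‖b x.out‖ ^ 2 := by
  set Q := ∑ x ∈ bl hL u, m.m x * ‖b x.out‖ ^ 2 with hQ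
  have hbk : ∀ g, ∀ k ∈ L.K, b (g * k) = b g := by
    intro g k hk
    rw [hb, hbK k hk, map_zero, add_zero]
  set β : Γ ⧸ L.K → ℝ := fun x => ‖b x.out‖ ^ 2 with hβ
  have hβ0 : ∀ x, 0 ≤ β x := fun x => sq_nonneg _
  have h1 : ∑ x ∈ bl hL (u + d), m.m (g⁻¹ • x) * β (g⁻¹ • x) = Q :=
    sum_trans hL u (u + d) (fun x => m.m x * β x) g (by omega)
      (fun x hx => by rw [m.supp x hx, zero_mul])
  have h2 : ∑ x ∈ bl hL (u + d), m.m x * β x = Q := by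
    symm
    refine Finset.sum_subset (bl_mono hL (by omega)) ?_
    intro x _ hx
    rw [mem_bl, not_le] at hx
    rw [m.supp x hx, zero_mul]
  have h3 : ∑ x ∈ bl hL (u + d), m.m (g⁻¹ • x) = 1 := by
    rw [sum_trans hL u (u + d) (fun x => m.m x) g (by omega) (fun x hx => m.supp x hx), m.one]
  have h4 : ∑ x ∈ bl hL (u + d), m.m x = 1 := by
    rw [← m.one]
    symm
    refine Finset.sum_subset (bl_mono hL (by omega)) ?_
    intro x _ hx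
    rw [mem_bl, not_le] at hx
    exact m.supp x hx
  have h5 : ∀ x : Γ ⧸ L.K, ‖b g‖ ^ 2 ≤ 2 * β x + 2 * β (g⁻¹ • x) := by
    intro x
    have e0 : b (g * (g⁻¹ • x).out) = b x.out := by
      have := out_smul L b hbk g (g⁻¹ • x)
      rw [smul_inv_smul] at this
      exact this.symm
    have e1 : b x.out = b g + ρ.lam g (b (g⁻¹ • x).out) := by rw [← e0, hb]
    have e2 : b g = b x.out - ρ.lam g (b (g⁻¹ • x).out) := by rw [e1]; abel
    have e3 : ‖b g‖ ≤ ‖b x.out‖ + ‖b (g⁻¹ • x).out‖ := by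
      rw [e2]
      refine (norm_sub_le _ _).trans ?_
      rw [(ρ.lam g).norm_map]
    have e4 : ‖b g‖ ^ 2 ≤ (‖b x.out‖ + ‖b (g⁻¹ • x).out‖) ^ 2 :=
      pow_le_pow_left₀ (norm_nonneg _) e3 2
    simp only [hβ]
    nlinarith [sq_nonneg (‖b x.out‖ - ‖b (g⁻¹ • x).out‖)]
  have h6 : (1 : ℝ) / 2 ≤ ∑ x ∈ bl hL (u + d), min (m.m (g⁻¹ • x)) (m.m x) := by
    have h7 : ∀ x : Γ ⧸ L.K, min (m.m (g⁻¹ • x)) (m.m x) =
        (m.m (g⁻¹ • x) + m.m x - |m.m (g⁻¹ • x) - m.m x|) / 2 := by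
      intro x
      rcases le_total (m.m (g⁻¹ • x)) (m.m x) with h | h
      · rw [min_eq_left h, abs_of_nonpos (by linarith)]
        ring
      · rw [min_eq_right h, abs_of_nonneg (by linarith)]
        ring
    rw [Finset.sum_congr rfl fun x _ => h7 x, ← Finset.sum_div, Finset.sum_sub_distrib,
      Finset.sum_add_distrib, h3, h4]
    linarith
  have h8 : (1 : ℝ) / 2 * ‖b g‖ ^ 2 ≤ 4 * Q := by
    calc (1 : ℝ) / 2 * ‖b g‖ ^ 2
        ≤ (∑ x ∈ bl hL (u + d), min (m.m (g⁻¹ • x)) (m.m x)) * ‖b g‖ ^ 2 := by gcongr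
      _ = ∑ x ∈ bl hL (u + d), min (m.m (g⁻¹ • x)) (m.m x) * ‖b g‖ ^ 2 := Finset.sum_mul _ _ _
      _ ≤ ∑ x ∈ bl hL (u + d), (2 * (m.m x * β x) + 2 * (m.m (g⁻¹ • x) * β (g⁻¹ • x))) := by
          refine Finset.sum_le_sum fun x _ => ?_
          have h9 : 0 ≤ min (m.m (g⁻¹ • x)) (m.m x) := le_min (m.nonneg _) (m.nonneg _)
          have h10 := mul_le_mul_of_nonneg_left (h5 x) h9
          have h11 := mul_le_mul_of_nonneg_right (min_le_right (m.m (g⁻¹ • x)) (m.m x)) (hβ0 x)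
          have h12 := mul_le_mul_of_nonneg_right (min_le_left (m.m (g⁻¹ • x)) (m.m x))
            (hβ0 (g⁻¹ • x))
          linarith
      _ = 4 * Q := by
          rw [Finset.sum_add_distrib, ← Finset.mul_sum, ← Finset.mul_sum, h1, h2]
          ring
  linarith

/-- Lengths and steps. -/
theorem norm_le_of_steps (hsplit : Split L) (ρ : Rep L E) (b : Γ → E)
    (hb : ∀ g h, b (g * h) = b g + ρ.lam g (b h)) (hbK : ∀ k ∈ L.K, b k = 0) (d : ℕ) (C : ℝ)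
    (h1 : ∀ g, L.ℓ g ≤ d → ‖b g‖ ≤ C) (q : ℕ) : ∀ g, L.ℓ g ≤ q * d → ‖b g‖ ≤ q * C := by
  induction q with
  | zero =>
    intro g hg
    rw [zero_mul] at hg
    rw [hbK g (Nat.le_zero.1 hg), norm_zero, Nat.cast_zero, zero_mul]
  | succ q ih =>
    intro g hg
    obtain ⟨x, y, rfl, hx, hy⟩ := hsplit g (q * d) d (by rw [add_mul, one_mul] at hg; exact hg)
    rw [hb]
    refine (norm_add_le _ _).trans ?_
    rw [(ρ.lam x).norm_map]
    have h2 := ih x hx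
    have h3 := h1 y hy
    push_cast
    linarith

theorem real_low (A u d κ Q : ℝ) (hA : 1 ≤ A) (hu : 1 ≤ u) (hd : 1 ≤ d) (hκ : u ≤ κ * d)
    (hQ : 0 ≤ Q) (h : √2 * A ≤ (1 + (4 * (A * u) + 1) / d) * √(8 * Q)) :
    1 / (16 * (1 + 2 * κ) ^ 2) ≤ Q := by
  have hd0 : 0 < d := by linarith
  have hκ0 : 0 < κ := by
    by_contra hcon
    rw [not_lt] at hcon
    have := mul_nonpos_of_nonpos_of_nonneg hcon hd0.le
    linarith
  have h1 : (4 * (A * u) + 1) / d ≤ 4 * (A * κ) + 1 := by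
    rw [div_le_iff₀ hd0]
    have h2 : A * u ≤ A * (κ * d) := mul_le_mul_of_nonneg_left hκ (by linarith)
    have h3 : A * (κ * d) = A * κ * d := by ring
    rw [add_mul, one_mul, mul_assoc 4]
    linarith
  have h2 : 0 ≤ A * κ := by positivity
  have h3 : 1 + (4 * (A * u) + 1) / d ≤ 2 * A * (1 + 2 * κ) := by
    have h4 : 2 * A * (1 + 2 * κ) = 2 * A + 4 * (A * κ) := by ring
    linarith
  have hs : 0 ≤ √(8 * Q) := Real.sqrt_nonneg _
  have h6 : √2 * A ≤ 2 * A * (1 + 2 * κ) * √(8 * Q) :=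
    h.trans (mul_le_mul_of_nonneg_right h3 hs)
  have h7 : (√2 * A) ^ 2 ≤ (2 * A * (1 + 2 * κ) * √(8 * Q)) ^ 2 :=
    pow_le_pow_left₀ (by positivity) h6 2
  have e1 : (√2 * A) ^ 2 = A ^ 2 * 2 := by
    rw [mul_pow, Real.sq_sqrt (by norm_num)]
    ring
  have e2 : (2 * A * (1 + 2 * κ) * √(8 * Q)) ^ 2 = A ^ 2 * (2 * (Q * (16 * (1 + 2 * κ) ^ 2))) := by
    rw [mul_pow, Real.sq_sqrt (by positivity)]
    ring
  rw [e1, e2] at h7
  have hAA : 0 < A ^ 2 := by positivity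
  have h8 := le_of_mul_le_mul_left h7 hAA
  rw [div_le_iff₀ (by positivity)]
  linarith

/-- **Block A.** The cocycle of a window. -/
theorem exists_cocycle (hsplit : Split L) (ρ : Rep L E) (m : Dens hL u) (hu : 1 ≤ u) (d : ℕ)
    (hd : 1 ≤ d) (ho : ∀ g, L.ℓ g ≤ d → ∑ x ∈ bl hL (u + d), |m.m (g⁻¹ • x) - m.m x| ≤ 1)
    (κ : ℝ) (hκ : (u : ℝ) ≤ κ * d) (A : ℕ) (D : ℝ) (hD1 : 1 ≤ D) (hA : 2 * D ≤ (A : ℝ) ^ 2)
    (hD : ((bl hL (A * u + u)).card : ℝ) ≤ D * (bl hL (A * u / 2)).card) :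
    ∃ b : Γ → E, (∀ g h, b (g * h) = b g + ρ.lam g (b h)) ∧ (∀ k ∈ L.K, b k = 0) ∧
      (∀ g, ‖b g‖ ≤ 57 * √D * (1 + L.ℓ g / d)) ∧ (∀ g, ‖b g‖ ≤ 2 * A) ∧
      (∀ g, 4 * (A * u) < L.ℓ g → ‖b g‖ = √2 * A) ∧
      ‖∑ x ∈ bl hL u, m.m x • b x.out‖ ≤ 64 * D / A ∧
      ∑ x ∈ bl hL u, m.m x * ‖b x.out‖ ^ 2 ≤ 400 * D ∧
      ((∃ g, 4 * (A * u) < L.ℓ g) →
        1 / (16 * (1 + 2 * κ) ^ 2) ≤ ∑ x ∈ bl hL u, m.m x * ‖b x.out‖ ^ 2) := by
  have hD0 : (0 : ℝ) < D := by linarith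
  have hA0 : (0 : ℝ) < A := by
    rcases (Nat.cast_nonneg A : (0 : ℝ) ≤ A).eq_or_lt with h | h
    · rw [← h] at hA; norm_num at hA; linarith
    · exact h
  have hA1 : (1 : ℝ) ≤ A := by
    have : 0 < A := by exact_mod_cast hA0
    exact_mod_cast this
  have hd0 : (0 : ℝ) < d := by exact_mod_cast hd
  have hs0 : 0 < √(2 * D) := Real.sqrt_pos.2 (by linarith)
  have hs2 : √(2 * D) ^ 2 = 2 * D := Real.sq_sqrt (by linarith)
  set n := ⌊(A : ℝ) / √(2 * D)⌋₊ with hn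
  have hge1 : 1 ≤ (A : ℝ) / √(2 * D) := by
    rw [le_div_iff₀ hs0, one_mul]
    exact Real.sqrt_le_iff.2 ⟨hA0.le, hA⟩
  have hn1 : 1 ≤ n := (Nat.one_le_floor_iff _).2 hge1
  have hn1' : (1 : ℝ) ≤ n := by exact_mod_cast hn1
  have hnle : (n : ℝ) ≤ A / √(2 * D) := Nat.floor_le (by positivity)
  have hnlt : (A : ℝ) / √(2 * D) < n + 1 := Nat.lt_floor_add_one _
  have hn_up : 2 * D * (n : ℝ) ^ 2 ≤ (A : ℝ) ^ 2 := by
    rw [le_div_iff₀ hs0] at hnle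
    calc 2 * D * (n : ℝ) ^ 2 = (n * √(2 * D)) ^ 2 := by rw [mul_pow, hs2]; ring
      _ ≤ (A : ℝ) ^ 2 := by gcongr
  have hn_lo : (A : ℝ) ^ 2 ≤ 8 * D * (n : ℝ) ^ 2 := by
    rw [div_lt_iff₀ hs0] at hnlt
    have h1 : (A : ℝ) ≤ 2 * n * √(2 * D) := by nlinarith
    calc (A : ℝ) ^ 2 ≤ (2 * n * √(2 * D)) ^ 2 := by gcongr
      _ = 8 * D * (n : ℝ) ^ 2 := by rw [mul_pow, hs2]; ring
  have hnn : (0 : ℝ) < (n : ℝ) ^ 2 := by positivity
  obtain ⟨v, hvf, hvs, hv0, hv1, hv2⟩ := exists_smooth_vec ρ m hu A n hn1 D hD1 hn_up hD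
  set t : ℝ := A / ‖v‖ with ht
  have ht0 : 0 < t := by positivity
  have htv : t * ‖v‖ = A := by rw [ht]; field_simp
  let b : Γ → E := fun g => t • (ρ.lam g v - v)
  have hbd : ∀ g, b g = t • (ρ.lam g v - v) := fun g => rfl
  have hb : ∀ g h, b (g * h) = b g + ρ.lam g (b h) := by
    intro g h
    rw [hbd, hbd, hbd, map_smul, map_sub, lam_mul, ← smul_add]
    congr 1
    abel
  have hbK : ∀ k ∈ L.K, b k = 0 := by
    intro k hk
    rw [hbd, hvf k hk, sub_self, smul_zero]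
  have hQ : ∑ x ∈ bl hL u, m.m x * ‖b x.out‖ ^ 2 = t ^ 2 * (2 * inner ℝ (v - av m ρ.lam v) v) := by
    rw [← energy, Finset.mul_sum]
    refine Finset.sum_congr rfl fun x _ => ?_
    rw [hbd, norm_smul, Real.norm_of_nonneg ht0.le]
    ring
  have hQle : ∑ x ∈ bl hL u, m.m x * ‖b x.out‖ ^ 2 ≤ 400 * D := by
    rw [hQ]
    calc t ^ 2 * (2 * inner ℝ (v - av m ρ.lam v) v)
        ≤ t ^ 2 * (2 * (25 / (n : ℝ) ^ 2 * ‖v‖ ^ 2)) := by gcongr
      _ = 50 * (t * ‖v‖) ^ 2 / (n : ℝ) ^ 2 := by ring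
      _ = 50 * (A : ℝ) ^ 2 / (n : ℝ) ^ 2 := by rw [htv]
      _ ≤ 400 * D := by
          rw [div_le_iff₀ hnn]
          linarith
  set Q := ∑ x ∈ bl hL u, m.m x * ‖b x.out‖ ^ 2 with hQdef
  have hQ0 : 0 ≤ Q := Finset.sum_nonneg fun x _ => mul_nonneg (m.nonneg x) (sq_nonneg _)
  have h8 : ∀ g, L.ℓ g ≤ d → ‖b g‖ ≤ √(8 * Q) := by
    intro g hg
    exact Real.le_sqrt_of_sq_le (norm_le_of_overlap ρ m b hb hbK g d hg (ho g hg))
  have hsteps : ∀ g, ‖b g‖ ≤ (1 + L.ℓ g / d) * √(8 * Q) := by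
    intro g
    have h1 := norm_le_of_steps hsplit ρ b hb hbK d _ h8 (L.ℓ g / d + 1) g (by
      have h2 := Nat.div_add_mod (L.ℓ g) d
      have h3 := Nat.mod_lt (L.ℓ g) (show 0 < d from hd)
      rw [add_mul, one_mul, mul_comm]
      omega)
    refine h1.trans ?_
    have h2 : ((L.ℓ g / d : ℕ) : ℝ) ≤ (L.ℓ g : ℝ) / d := Nat.cast_div_le
    push_cast
    have h3 : 0 ≤ √(8 * Q) := Real.sqrt_nonneg _
    nlinarith
  have hfar : ∀ g, 4 * (A * u) < L.ℓ g → ‖b g‖ = √2 * A := by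
    intro g hg
    have h1 := inner_lam_eq_zero ρ (2 * (A * u)) v hvs g (by omega)
    have h2 : ‖ρ.lam g v - v‖ ^ 2 = 2 * ‖v‖ ^ 2 := by
      rw [norm_sub_sq_real, (ρ.lam g).norm_map, h1]
      ring
    have h3 : ‖b g‖ ^ 2 = (√2 * A) ^ 2 := by
      rw [hbd, norm_smul, Real.norm_of_nonneg ht0.le, mul_pow, h2, mul_pow,
        Real.sq_sqrt (by norm_num : (0 : ℝ) ≤ 2), ← htv]
      ring
    have h4 : |‖b g‖| = |√2 * A| := sq_eq_sq_iff_abs_eq_abs _ _ |>.1 h3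
    rwa [abs_of_nonneg (norm_nonneg _), abs_of_nonneg (by positivity)] at h4
  refine ⟨b, hb, hbK, ?_, ?_, hfar, ?_, hQle, ?_⟩
  · intro g
    refine (hsteps g).trans ?_
    have h1 : √(8 * Q) ≤ 57 * √D := by
      rw [Real.sqrt_le_left (by positivity), mul_pow, Real.sq_sqrt hD0.le]
      linarith
    have h2 : (0 : ℝ) ≤ 1 + L.ℓ g / d := by positivity
    calc (1 + L.ℓ g / d) * √(8 * Q) ≤ (1 + L.ℓ g / d) * (57 * √D) := by gcongr
      _ = 57 * √D * (1 + L.ℓ g / d) := by ring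
  · intro g
    rw [hbd, norm_smul, Real.norm_of_nonneg ht0.le]
    have h1 : ‖ρ.lam g v - v‖ ≤ 2 * ‖v‖ := by
      refine (norm_sub_le _ _).trans ?_
      rw [(ρ.lam g).norm_map]
      linarith
    calc t * ‖ρ.lam g v - v‖ ≤ t * (2 * ‖v‖) := by gcongr
      _ = 2 * (t * ‖v‖) := by ring
      _ = 2 * A := by rw [htv]
  · have h1 : ∑ x ∈ bl hL u, m.m x • b x.out = t • (av m ρ.lam v - v) := by
      rw [av_apply]
      calc ∑ x ∈ bl hL u, m.m x • b x.out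
          = ∑ x ∈ bl hL u, (t • (m.m x • ρ.lam x.out v) - m.m x • (t • v)) := by
            refine Finset.sum_congr rfl fun x _ => ?_
            rw [hbd, smul_sub, smul_sub, smul_comm]
        _ = _ := by
            rw [Finset.sum_sub_distrib, ← Finset.smul_sum, ← Finset.sum_smul, m.one, one_smul,
              smul_sub]
    rw [h1, norm_smul, Real.norm_of_nonneg ht0.le, norm_sub_rev]
    calc t * ‖v - av m ρ.lam v‖ ≤ t * (8 / (n : ℝ) ^ 2 * ‖v‖) := by gcongr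
      _ = 8 * (t * ‖v‖) / (n : ℝ) ^ 2 := by ring
      _ = 8 * A / (n : ℝ) ^ 2 := by rw [htv]
      _ ≤ 64 * D / A := by
          rw [div_le_div_iff₀ hnn hA0]
          nlinarith
  · rintro ⟨g, hg⟩
    obtain ⟨x, y, rfl, hx, hy⟩ := hsplit g (4 * (A * u) + 1) (L.ℓ g - (4 * (A * u) + 1)) (by omega)
    have h1 := L.mul x y
    have h2 : L.ℓ x = 4 * (A * u) + 1 := by omega
    have h3 := hfar x (by omega)
    have h4 := hsteps x
    rw [h3, h2] at h4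
    push_cast at h4
    exact real_low A u d κ Q hA1 (by exact_mod_cast hu) (by exact_mod_cast hd) hκ hQ0 h4

end

end Vale.Agent.P151.H36
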