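import Vale.Agent.P151.H36.Fej

/-!
P151 (A), relative Gromov theorem, block A: the smoothing lemma for a symmetric contraction.
-/

open Polynomial

namespace Vale.Agent.P151.H36

noncomputable section

variable {E : Type*} [NormedAddCommGroup E] [InnerProductSpace ℝ E]

theorem smooth (T : E →ₗ[ℝ] E) (hs : ∀ x y, inner ℝ (T x) y = inner ℝ x (T y))
    (hc : ∀ x, ‖T x‖ ≤ ‖x‖) (f : E) (n : ℕ) (hn : 1 ≤ n)
    (hf : inner ℝ (f - T f) f ≤ ‖f‖ ^ 2 / (n : ℝ) ^ 2) :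
    ∃ F : ℝ[X], F.natDegree ≤ n - 1 ∧
      2 / 25 * ‖f‖ ^ 2 ≤ ‖aeval T F f‖ ^ 2 ∧
      ‖aeval T F f - T (aeval T F f)‖ ≤ 2 / (n : ℝ) ^ 2 * ‖f‖ ∧
      inner ℝ (aeval T F f - T (aeval T F f)) (aeval T F f) ≤ 2 / (n : ℝ) ^ 2 * ‖f‖ ^ 2 := by
  have hn0 : (0 : ℝ) < n := by exact_mod_cast hn
  obtain ⟨F, hdeg, -, h01, h2, h3⟩ := exists_fejer n hn
  obtain ⟨d, w, x, hw, hx, hq⟩ := exists_quad T hs hc f n
  have d1 : (1 : ℝ[X]).natDegree ≤ n := by rw [natDegree_one]; exact Nat.zero_le n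
  have dF : F.natDegree ≤ n := hdeg.trans (Nat.sub_le _ _)
  have dX : ((1 : ℝ[X]) - X).natDegree ≤ n := by
    refine (natDegree_sub_le _ _).trans ?_
    rw [natDegree_one, natDegree_X]
    simpa using hn
  have dXF : (((1 : ℝ[X]) - X) * F).natDegree ≤ n := by
    refine natDegree_mul_le.trans ?_
    have h1 : ((1 : ℝ[X]) - X).natDegree ≤ 1 := by
      refine (natDegree_sub_le _ _).trans ?_
      rw [natDegree_one, natDegree_X]
      simp
    omega
  have e1 : aeval T (1 : ℝ[X]) f = f := by simp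
  have eX : aeval T ((1 : ℝ[X]) - X) f = f - T f := by simp
  have eXF : aeval T (((1 : ℝ[X]) - X) * F) f = aeval T F f - T (aeval T F f) := by
    rw [map_mul, Module.End.mul_apply]
    simp
  have hf2 : ‖f‖ ^ 2 = ∑ i, w i := by
    have := hq 1 1 d1 d1
    rw [e1, real_inner_self_eq_norm_sq] at this
    simpa using this
  have hg2 : ‖aeval T F f‖ ^ 2 = ∑ i, w i * (F.eval (x i)) ^ 2 := by
    have := hq F F dF dF
    rw [real_inner_self_eq_norm_sq] at this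
    rw [this]
    exact Finset.sum_congr rfl fun i _ => by ring
  have hfT : inner ℝ (f - T f) f = ∑ i, w i * (1 - x i) := by
    have := hq (1 - X) 1 dX d1
    rw [e1, eX] at this
    simpa using this
  refine ⟨F, hdeg, ?_, ?_, ?_⟩
  · rw [hg2]
    have h4 : ∀ i, w i * (4 / 25 * (1 - (n : ℝ) ^ 2 / 2 * (1 - x i))) ≤
        w i * (F.eval (x i)) ^ 2 := by
      intro i
      refine mul_le_mul_of_nonneg_left ?_ (hw i)
      by_cases hi : 1 - x i ≤ 2 / (n : ℝ) ^ 2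
      · have h5 := h3 (x i) (hx i) hi
        have h6 : 0 ≤ 1 - x i := by linarith [(abs_le.1 (hx i)).2]
        have h7 : 0 ≤ (n : ℝ) ^ 2 / 2 * (1 - x i) := by positivity
        nlinarith
      · rw [not_le, div_lt_iff₀ (by positivity)] at hi
        have h7 : 4 / 25 * (1 - (n : ℝ) ^ 2 / 2 * (1 - x i)) ≤ 0 := by nlinarith
        exact h7.trans (sq_nonneg _)
    refine le_trans ?_ (Finset.sum_le_sum fun i _ => h4 i)
    have h5 : ∑ i, w i * (4 / 25 * (1 - (n : ℝ) ^ 2 / 2 * (1 - x i))) =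
        4 / 25 * (∑ i, w i - (n : ℝ) ^ 2 / 2 * ∑ i, w i * (1 - x i)) := by
      rw [mul_sub, Finset.mul_sum, Finset.mul_sum, Finset.mul_sum, ← Finset.sum_sub_distrib]
      exact Finset.sum_congr rfl fun i _ => by ring
    rw [h5, ← hf2, ← hfT]
    have h6 : (n : ℝ) ^ 2 / 2 * inner ℝ (f - T f) f ≤ ‖f‖ ^ 2 / 2 := by
      calc (n : ℝ) ^ 2 / 2 * inner ℝ (f - T f) f
          ≤ (n : ℝ) ^ 2 / 2 * (‖f‖ ^ 2 / (n : ℝ) ^ 2) := by gcongr
        _ = ‖f‖ ^ 2 / 2 := by field_simp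
    linarith
  · have h4 : ‖aeval T F f - T (aeval T F f)‖ ^ 2 ≤ (2 / (n : ℝ) ^ 2 * ‖f‖) ^ 2 := by
      have h5 := hq _ _ dXF dXF
      rw [real_inner_self_eq_norm_sq, eXF] at h5
      rw [h5, mul_pow, hf2, Finset.mul_sum]
      refine Finset.sum_le_sum fun i _ => ?_
      obtain ⟨h6, h7⟩ := h2 (x i) (hx i)
      rw [eval_mul, eval_sub, eval_one, eval_X, mul_comm ((2 / (n : ℝ) ^ 2) ^ 2), ← sq]
      exact mul_le_mul_of_nonneg_left (by gcongr) (hw i)
    exact le_of_sq_le_sq h4 (by positivity)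
  · have h5 := hq _ _ dXF dF
    rw [eXF] at h5
    rw [h5, hf2, Finset.mul_sum]
    refine Finset.sum_le_sum fun i _ => ?_
    obtain ⟨h6, h7⟩ := h2 (x i) (hx i)
    obtain ⟨h8, h9⟩ := h01 (x i) (hx i)
    rw [eval_mul, eval_sub, eval_one, eval_X, mul_comm (2 / (n : ℝ) ^ 2)]
    refine mul_le_mul_of_nonneg_left ?_ (hw i)
    nlinarith

/-- finite propagation -/
theorem aeval_mem (T : E →ₗ[ℝ] E) (P : ℕ → Submodule ℝ E) (hP : Monotone P)
    (hT : ∀ j, ∀ x ∈ P j, T x ∈ P (j + 1)) (f : E) (hf : f ∈ P 0) (F : ℝ[X]) (n : ℕ)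
    (hF : F.natDegree ≤ n) : aeval T F f ∈ P n := by
  have h1 : ∀ j, (T ^ j) f ∈ P j := by
    intro j
    induction j with
    | zero => simpa using hf
    | succ j ih =>
      rw [pow_succ', Module.End.mul_apply]
      exact hT j _ ih
  rw [aeval_eq_sum_range, LinearMap.sum_apply]
  refine Submodule.sum_mem _ fun j hj => ?_
  rw [LinearMap.smul_apply]
  refine (P n).smul_mem _ (hP ?_ (h1 j))
  have := Finset.mem_range.1 hj
  omega

end

end Vale.Agent.P151.H36
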