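import Vale.Agent.P151.H36.Coc0
import Vale.Agent.P151.GB.Base

/-!
P151 (A), relative Gromov theorem, block A: densities on `Γ ⧸ K` and their averaging operators.
-/

open Polynomial

namespace Vale.Agent.P151.H36

open GB

noncomputable section

variable {Γ : Type*} [Group Γ]

/-- The length of a coset. -/
def nr (L : Len Γ) (x : Γ ⧸ L.K) : ℕ := L.ℓ x.out

theorem out_mk {V : Type*} (L : Len Γ) (φ : Γ → V) (hφ : ∀ g, ∀ k ∈ L.K, φ (g * k) = φ g)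
    (g : Γ) : φ ((g : Γ ⧸ L.K).out) = φ g := by
  obtain ⟨k, hk⟩ := QuotientGroup.mk_out_eq_mul L.K g
  rw [hk, hφ g k k.2]

theorem smul_eq (L : Len Γ) (g : Γ) (x : Γ ⧸ L.K) :
    g • x = ((g * x.out : Γ) : Γ ⧸ L.K) := by
  conv_lhs => rw [← QuotientGroup.out_eq' x]
  rfl

theorem out_smul {V : Type*} (L : Len Γ) (φ : Γ → V) (hφ : ∀ g, ∀ k ∈ L.K, φ (g * k) = φ g)
    (g : Γ) (x : Γ ⧸ L.K) : φ ((g • x).out) = φ (g * x.out) := by
  rw [smul_eq, out_mk L φ hφ]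

theorem nr_mk (L : Len Γ) (g : Γ) : nr L (g : Γ ⧸ L.K) = L.ℓ g :=
  out_mk L L.ℓ (fun _ _ hk => L.mul_K hk) g

theorem nr_smul_eq (L : Len Γ) (g : Γ) (x : Γ ⧸ L.K) : nr L (g • x) = L.ℓ (g * x.out) :=
  out_smul L L.ℓ (fun _ _ hk => L.mul_K hk) g x

theorem nr_smul_le (L : Len Γ) (g : Γ) (x : Γ ⧸ L.K) : nr L (g • x) ≤ L.ℓ g + nr L x := by
  rw [nr_smul_eq]
  exact L.mul _ _

theorem nr_smul_K (L : Len Γ) {k : Γ} (hk : k ∈ L.K) (x : Γ ⧸ L.K) : nr L (k • x) = nr L x := by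
  rw [nr_smul_eq, L.K_mul hk]
  rfl

theorem mem_ball_iff (L : Len Γ) (n : ℕ) (x : Γ ⧸ L.K) : x ∈ L.ball n ↔ nr L x ≤ n := by
  conv_lhs => rw [← QuotientGroup.out_eq' x]
  exact L.mem_ball

/-- The ball as a finite set. -/
def bl {L : Len Γ} (hL : L.Proper) (n : ℕ) : Finset (Γ ⧸ L.K) := (hL n).toFinset

theorem mem_bl {L : Len Γ} (hL : L.Proper) {n : ℕ} {x : Γ ⧸ L.K} :
    x ∈ bl hL n ↔ nr L x ≤ n := by
  rw [bl, Set.Finite.mem_toFinset, mem_ball_iff]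

theorem bl_mono {L : Len Γ} (hL : L.Proper) {m n : ℕ} (h : m ≤ n) : bl hL m ⊆ bl hL n :=
  fun _ hx => (mem_bl hL).2 (((mem_bl hL).1 hx).trans h)

/-- Sums over a ball are invariant under `K`. -/
theorem sum_smul_K {L : Len Γ} (hL : L.Proper) {V : Type*} [AddCommMonoid V] (n : ℕ)
    (F : Γ ⧸ L.K → V) {k : Γ} (hk : k ∈ L.K) :
    ∑ x ∈ bl hL n, F (k • x) = ∑ x ∈ bl hL n, F x := by
  refine Finset.sum_nbij' (fun x => k • x) (fun x => k⁻¹ • x) ?_ ?_ ?_ ?_ ?_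
  · intro x hx
    rw [mem_bl] at hx ⊢
    rwa [nr_smul_K L hk]
  · intro x hx
    rw [mem_bl] at hx ⊢
    rwa [nr_smul_K L (L.K.inv_mem hk)]
  · intro x _
    exact inv_smul_smul k x
  · intro x _
    exact smul_inv_smul k x
  · intro x _
    rfl

/-- Translation of a sum over a ball. -/
theorem sum_trans {L : Len Γ} (hL : L.Proper) {V : Type*} [AddCommMonoid V] (n N : ℕ)
    (F : Γ ⧸ L.K → V) (g : Γ) (h : n + L.ℓ g ≤ N) (hF : ∀ x, n < nr L x → F x = 0) :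
    ∑ x ∈ bl hL N, F (g⁻¹ • x) = ∑ x ∈ bl hL n, F x := by
  classical
  have h1 : ∑ x ∈ bl hL n, F x = ∑ y ∈ (bl hL n).image (fun x => g • x), F (g⁻¹ • y) := by
    rw [Finset.sum_image (fun x _ y _ hxy => MulAction.injective g hxy)]
    exact Finset.sum_congr rfl fun x _ => by rw [inv_smul_smul]
  rw [h1]
  symm
  refine Finset.sum_subset ?_ ?_
  · intro y hy
    obtain ⟨x, hx, rfl⟩ := Finset.mem_image.1 hy
    rw [mem_bl] at hx ⊢
    have := nr_smul_le L g x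
    omega
  · intro y _ hy
    apply hF
    by_contra hcon
    exact hy (Finset.mem_image.2 ⟨g⁻¹ • y, (mem_bl hL).2 (not_lt.1 hcon), smul_inv_smul g y⟩)

/-- A symmetric `K`-invariant probability density supported on a ball. -/
structure Dens {L : Len Γ} (hL : L.Proper) (u : ℕ) where
  m : Γ ⧸ L.K → ℝ
  nonneg : ∀ x, 0 ≤ m x
  supp : ∀ x, u < nr L x → m x = 0
  one : ∑ x ∈ bl hL u, m x = 1
  inv : ∀ k ∈ L.K, ∀ x, m (k • x) = m x
  symm : ∀ φ : Γ → ℝ, (∀ g, ∀ k ∈ L.K, φ (g * k) = φ g) → (∀ g, ∀ k ∈ L.K, φ (k * g) = φ g) →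
    ∑ x ∈ bl hL u, m x * φ x.out = ∑ x ∈ bl hL u, m x * φ (x.out)⁻¹

variable {E : Type*} [NormedAddCommGroup E] [InnerProductSpace ℝ E]

/-- The vectors fixed by `K`. -/
def fx (L : Len Γ) (lam : Γ →* (E ≃ₗᵢ[ℝ] E)) : Submodule ℝ E where
  carrier := {v | ∀ k ∈ L.K, lam k v = v}
  add_mem' := by
    intro v w hv hw k hk
    rw [map_add, hv k hk, hw k hk]
  zero_mem' := fun k _ => map_zero _
  smul_mem' := by
    intro c v hv k hk
    rw [map_smul, hv k hk]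

theorem lam_mul (lam : Γ →* (E ≃ₗᵢ[ℝ] E)) (g h : Γ) (v : E) : lam (g * h) v = lam g (lam h v) := by
  rw [map_mul]
  rfl

theorem lam_one (lam : Γ →* (E ≃ₗᵢ[ℝ] E)) (v : E) : lam 1 v = v := by
  rw [map_one]
  rfl

theorem lam_inv_apply (lam : Γ →* (E ≃ₗᵢ[ℝ] E)) (g : Γ) (v : E) : lam g⁻¹ (lam g v) = v := by
  rw [← lam_mul, inv_mul_cancel, lam_one]

theorem lam_inv_apply' (lam : Γ →* (E ≃ₗᵢ[ℝ] E)) (g : Γ) (v : E) : lam g (lam g⁻¹ v) = v := by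
  rw [← lam_mul, mul_inv_cancel, lam_one]

theorem inner_lam (lam : Γ →* (E ≃ₗᵢ[ℝ] E)) (g : Γ) (v w : E) :
    inner ℝ (lam g v) w = inner ℝ v (lam g⁻¹ w) := by
  conv_lhs => rw [← lam_inv_apply' lam g w]
  exact (lam g).inner_map_map v _

variable {L : Len Γ} {hL : L.Proper} {u : ℕ}

/-- The averaging operator. -/
def av (D : Dens hL u) (lam : Γ →* (E ≃ₗᵢ[ℝ] E)) : E →ₗ[ℝ] E :=
  ∑ x ∈ bl hL u, D.m x • ((lam x.out).toLinearEquiv : E →ₗ[ℝ] E)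

theorem av_apply (D : Dens hL u) (lam : Γ →* (E ≃ₗᵢ[ℝ] E)) (v : E) :
    av D lam v = ∑ x ∈ bl hL u, D.m x • lam x.out v := by
  rw [av, LinearMap.sum_apply]
  rfl

theorem av_mem_fx (D : Dens hL u) (lam : Γ →* (E ≃ₗᵢ[ℝ] E)) (v : E) (hv : v ∈ fx L lam) :
    av D lam v ∈ fx L lam := by
  intro k hk
  rw [av_apply, map_sum, ← sum_smul_K hL u (fun x => D.m x • lam x.out v) hk]
  refine Finset.sum_congr rfl fun x _ => ?_
  rw [map_smul, D.inv k hk, ← lam_mul]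
  congr 1
  refine (out_smul L (fun g => lam g v) ?_ k x).symm
  intro g k hk
  rw [lam_mul, hv k hk]

theorem norm_av_le (D : Dens hL u) (lam : Γ →* (E ≃ₗᵢ[ℝ] E)) (v : E) :
    ‖av D lam v‖ ≤ ‖v‖ := by
  rw [av_apply]
  refine (norm_sum_le _ _).trans ?_
  calc ∑ x ∈ bl hL u, ‖D.m x • lam x.out v‖ = ∑ x ∈ bl hL u, D.m x * ‖v‖ := by
        refine Finset.sum_congr rfl fun x _ => ?_
        rw [norm_smul, Real.norm_of_nonneg (D.nonneg x), (lam x.out).norm_map]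
    _ = ‖v‖ := by rw [← Finset.sum_mul, D.one, one_mul]
    _ ≤ ‖v‖ := le_rfl

theorem av_symm (D : Dens hL u) (lam : Γ →* (E ≃ₗᵢ[ℝ] E)) (v w : E) (hv : v ∈ fx L lam)
    (hw : w ∈ fx L lam) : inner ℝ (av D lam v) w = inner ℝ v (av D lam w) := by
  rw [av_apply, av_apply, sum_inner, inner_sum]
  have h1 := D.symm (fun g => inner ℝ (lam g v) w) ?_ ?_
  · calc ∑ x ∈ bl hL u, inner ℝ (D.m x • lam x.out v) w
        = ∑ x ∈ bl hL u, D.m x * inner ℝ (lam x.out v) w :=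
          Finset.sum_congr rfl fun x _ => by rw [real_inner_smul_left]
      _ = ∑ x ∈ bl hL u, D.m x * inner ℝ (lam (x.out)⁻¹ v) w := h1
      _ = ∑ x ∈ bl hL u, inner ℝ v (D.m x • lam x.out w) :=
          Finset.sum_congr rfl fun x _ => by
            rw [real_inner_smul_right, inner_lam, inv_inv]
  · intro g k hk
    rw [lam_mul, hv k hk]
  · intro g k hk
    rw [lam_mul, inner_lam, hw _ (L.K.inv_mem hk)]

/-- The energy identity. -/
theorem energy (D : Dens hL u) (lam : Γ →* (E ≃ₗᵢ[ℝ] E)) (v : E) :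
    ∑ x ∈ bl hL u, D.m x * ‖lam x.out v - v‖ ^ 2 = 2 * inner ℝ (v - av D lam v) v := by
  have h1 : ∀ x : Γ ⧸ L.K, D.m x * ‖lam x.out v - v‖ ^ 2 =
      D.m x * (2 * ‖v‖ ^ 2) - 2 * inner ℝ (D.m x • lam x.out v) v := by
    intro x
    rw [norm_sub_sq_real, (lam x.out).norm_map, real_inner_smul_left]
    ring
  rw [Finset.sum_congr rfl fun x _ => h1 x, Finset.sum_sub_distrib, ← Finset.sum_mul, D.one,
    ← Finset.mul_sum, ← sum_inner, ← av_apply, inner_sub_left, real_inner_self_eq_norm_sq]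
  ring

/-- The averaging operator on the fixed vectors. -/
def avF (D : Dens hL u) (lam : Γ →* (E ≃ₗᵢ[ℝ] E)) : fx L lam →ₗ[ℝ] fx L lam :=
  (av D lam).restrict (av_mem_fx D lam)

theorem coe_avF (D : Dens hL u) (lam : Γ →* (E ≃ₗᵢ[ℝ] E)) (v : fx L lam) :
    (avF D lam v : E) = av D lam v := rfl

/-! ### an equivariant orthonormal family -/

/-- A unitary representation with an equivariant orthonormal family indexed by `Γ ⧸ K`. -/
structure Rep (L : Len Γ) (E : Type*) [NormedAddCommGroup E] [InnerProductSpace ℝ E] where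
  lam : Γ →* (E ≃ₗᵢ[ℝ] E)
  δ : Γ ⧸ L.K → E
  orth : Orthonormal ℝ δ
  smul : ∀ g x, lam g (δ x) = δ (g • x)

/-- The vector with given coefficients on a ball. -/
def vc (hL : L.Proper) (ρ : Rep L E) (n : ℕ) (h : Γ ⧸ L.K → ℝ) : E :=
  ∑ x ∈ bl hL n, h x • ρ.δ x

theorem norm_vc_sq (ρ : Rep L E) (n : ℕ) (h : Γ ⧸ L.K → ℝ) :
    ‖vc hL ρ n h‖ ^ 2 = ∑ x ∈ bl hL n, h x ^ 2 := by
  rw [← real_inner_self_eq_norm_sq, vc, ρ.orth.inner_sum]
  exact Finset.sum_congr rfl fun x _ => by simp [sq]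

theorem vc_mono (ρ : Rep L E) {n N : ℕ} (hn : n ≤ N) (h : Γ ⧸ L.K → ℝ)
    (hh : ∀ x, n < nr L x → h x = 0) : vc hL ρ N h = vc hL ρ n h := by
  symm
  refine Finset.sum_subset (bl_mono hL hn) ?_
  intro x _ hx
  rw [mem_bl, not_le] at hx
  rw [hh x hx, zero_smul]

theorem lam_vc (ρ : Rep L E) {n N : ℕ} (h : Γ ⧸ L.K → ℝ) (hh : ∀ x, n < nr L x → h x = 0)
    (g : Γ) (hN : n + L.ℓ g ≤ N) :
    ρ.lam g (vc hL ρ n h) = vc hL ρ N (fun x => h (g⁻¹ • x)) := by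
  have h1 := sum_trans hL n N (fun x => h x • ρ.δ (g • x)) g hN
    (fun x hx => by rw [hh x hx, zero_smul])
  rw [vc, map_sum, vc]
  calc ∑ x ∈ bl hL n, ρ.lam g (h x • ρ.δ x) = ∑ x ∈ bl hL n, h x • ρ.δ (g • x) :=
        Finset.sum_congr rfl fun x _ => by rw [map_smul, ρ.smul]
    _ = ∑ x ∈ bl hL N, h (g⁻¹ • x) • ρ.δ (g • g⁻¹ • x) := h1.symm
    _ = _ := Finset.sum_congr rfl fun x _ => by rw [smul_inv_smul]

/-- The vectors supported on a ball. -/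
def sp (ρ : Rep L E) (n : ℕ) : Submodule ℝ E :=
  Submodule.span ℝ (ρ.δ '' {x | nr L x ≤ n})

theorem sp_mono (ρ : Rep L E) {n N : ℕ} (h : n ≤ N) : sp ρ n ≤ sp ρ N :=
  Submodule.span_mono (Set.image_mono fun _ hx => le_trans hx h)

theorem vc_mem_sp (ρ : Rep L E) (n : ℕ) (h : Γ ⧸ L.K → ℝ) : vc hL ρ n h ∈ sp ρ n :=
  Submodule.sum_mem _ fun x hx =>
    (sp ρ n).smul_mem _ (Submodule.subset_span ⟨x, (mem_bl hL).1 hx, rfl⟩)

theorem av_mem_sp (D : Dens hL u) (ρ : Rep L E) (n : ℕ) (v : E) (hv : v ∈ sp ρ n) :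
    av D ρ.lam v ∈ sp ρ (n + u) := by
  have h1 : sp ρ n ≤ (sp ρ (n + u)).comap (av D ρ.lam) := by
    rw [sp, Submodule.span_le]
    rintro _ ⟨x, hx, rfl⟩
    rw [Set.mem_ofPred_eq] at hx
    rw [SetLike.mem_coe, Submodule.mem_comap, av_apply]
    refine Submodule.sum_mem _ fun y hy => (sp ρ (n + u)).smul_mem _ ?_
    rw [ρ.smul]
    refine Submodule.subset_span ⟨_, ?_, rfl⟩
    rw [Set.mem_ofPred_eq]
    have h2 := nr_smul_le L y.out x
    have h3 : L.ℓ y.out ≤ u := (mem_bl hL).1 hy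
    omega
  exact h1 hv

/-- A long translate is orthogonal. -/
theorem inner_lam_eq_zero (ρ : Rep L E) (n : ℕ) (v : E) (hv : v ∈ sp ρ n) (g : Γ)
    (hg : 2 * n < L.ℓ g) : inner ℝ (ρ.lam g v) v = 0 := by
  have h1 : ρ.lam g v ∈ Submodule.span ℝ (ρ.δ '' {x | n < nr L x}) := by
    have h2 : sp ρ n ≤ (Submodule.span ℝ (ρ.δ '' {x | n < nr L x})).comap
        ((ρ.lam g).toLinearEquiv : E →ₗ[ℝ] E) := by
      rw [sp, Submodule.span_le]
      rintro _ ⟨x, hx, rfl⟩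
      rw [Set.mem_ofPred_eq] at hx
      rw [SetLike.mem_coe, Submodule.mem_comap]
      have h3 : ((ρ.lam g).toLinearEquiv : E →ₗ[ℝ] E) (ρ.δ x) = ρ.δ (g • x) := ρ.smul g x
      rw [h3]
      refine Submodule.subset_span ⟨_, ?_, rfl⟩
      rw [Set.mem_ofPred_eq]
      have h4 := L.mul (g * x.out) (x.out)⁻¹
      rw [mul_inv_cancel_right, L.inv, ← nr_smul_eq] at h4
      have h5 : L.ℓ x.out = nr L x := rfl
      omega
    exact h2 hv
  have h2 : Submodule.span ℝ (ρ.δ '' {x | n < nr L x}) ⟂ sp ρ n := by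
    rw [sp, Submodule.isOrtho_span]
    rintro _ ⟨x, hx, rfl⟩ _ ⟨y, hy, rfl⟩
    rw [Set.mem_ofPred_eq] at hx hy
    refine ρ.orth.2 ?_
    rintro rfl
    omega
  exact Submodule.isOrtho_iff_inner_eq.1 h2 _ h1 _ hv

end

end Vale.Agent.P151.H36
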