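import Vale.Agent.P151.H36.Coc

/-!
P151 (A), relative Gromov theorem, block A: the quasi-regular representation on `ℓ²(Γ ⧸ K)`.
-/

open scoped ENNReal

namespace Vale.Agent.P151.H36

open GB

noncomputable section

variable {Γ : Type*} [Group Γ]

/-- The Hilbert space `ℓ²(Γ ⧸ K)`. -/
abbrev L2K (L : Len Γ) := lp (fun _ : Γ ⧸ L.K => ℝ) 2

theorem memℓp_shiftK (L : Len Γ) (g : Γ) {f : Γ ⧸ L.K → ℝ} (hf : Memℓp f 2) :
    Memℓp (fun x => f (g⁻¹ • x)) 2 := by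
  rw [memℓp_gen_iff (by norm_num)] at hf ⊢
  exact (MulAction.toPerm (α := Γ) (β := Γ ⧸ L.K) g⁻¹).summable_iff.2 hf

/-- Translation as a function on `ℓ²(Γ ⧸ K)`. -/
def shiftK (L : Len Γ) (g : Γ) (f : L2K L) : L2K L := ⟨fun x => f (g⁻¹ • x), memℓp_shiftK L g f.2⟩

theorem shiftK_apply (L : Len Γ) (g : Γ) (f : L2K L) (x : Γ ⧸ L.K) :
    shiftK L g f x = f (g⁻¹ • x) := rfl

theorem shiftK_mul (L : Len Γ) (g h : Γ) (f : L2K L) :
    shiftK L (g * h) f = shiftK L g (shiftK L h f) := by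
  ext x
  rw [shiftK_apply, shiftK_apply, shiftK_apply, mul_inv_rev, mul_smul]

theorem shiftK_one (L : Len Γ) (f : L2K L) : shiftK L 1 f = f := by
  ext x
  rw [shiftK_apply, inv_one, one_smul]

theorem norm_shiftK (L : Len Γ) (g : Γ) (f : L2K L) : ‖shiftK L g f‖ = ‖f‖ := by
  rw [lp.norm_eq_tsum_rpow (by norm_num), lp.norm_eq_tsum_rpow (by norm_num)]
  congr 1
  exact (MulAction.toPerm (α := Γ) (β := Γ ⧸ L.K) g⁻¹).tsum_eq
    (fun x => ‖f x‖ ^ (2 : ℝ≥0∞).toReal)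

/-- Translation as a unitary operator. -/
def UK (L : Len Γ) (g : Γ) : L2K L ≃ₗᵢ[ℝ] L2K L where
  toFun := shiftK L g
  map_add' := fun f h => by ext x; simp [shiftK_apply]
  map_smul' := fun c f => by ext x; simp [shiftK_apply]
  invFun := shiftK L g⁻¹
  left_inv := fun f => by rw [← shiftK_mul, inv_mul_cancel, shiftK_one]
  right_inv := fun f => by rw [← shiftK_mul, mul_inv_cancel, shiftK_one]
  norm_map' := norm_shiftK L g

theorem UK_apply (L : Len Γ) (g : Γ) (f : L2K L) (x : Γ ⧸ L.K) : UK L g f x = f (g⁻¹ • x) := rfl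

/-- The quasi-regular representation. -/
def lamK (L : Len Γ) : Γ →* (L2K L ≃ₗᵢ[ℝ] L2K L) where
  toFun := UK L
  map_one' := LinearIsometryEquiv.ext fun f => shiftK_one L f
  map_mul' := fun g h => LinearIsometryEquiv.ext fun f => shiftK_mul L g h f

theorem lamK_apply (L : Len Γ) (g : Γ) (f : L2K L) (x : Γ ⧸ L.K) :
    lamK L g f x = f (g⁻¹ • x) := rfl

open Classical in
/-- The quasi-regular representation with its basis. -/
def regK (L : Len Γ) : Rep L (L2K L) where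
  lam := lamK L
  δ := fun x => lp.single 2 x (1 : ℝ)
  orth := by
    rw [orthonormal_iff_ite]
    intro x y
    rw [lp.inner_single_left, lp.single_apply]
    by_cases h : x = y
    · subst h
      simp
    · rw [if_neg h, Pi.single_eq_of_ne h]
      simp
  smul := by
    intro g x
    ext y
    rw [lamK_apply, lp.single_apply, lp.single_apply]
    by_cases h : y = g • x
    · subst h
      rw [inv_smul_smul, Pi.single_eq_same, Pi.single_eq_same]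
    · rw [Pi.single_eq_of_ne h, Pi.single_eq_of_ne]
      intro h2
      exact h (by rw [← h2, smul_inv_smul])

/-- **Block A**, on `ℓ²(Γ ⧸ K)`. -/
theorem exists_cocycle_regK {L : Len Γ} {hL : L.Proper} {u : ℕ} (hsplit : Split L)
    (m : Dens hL u) (hu : 1 ≤ u) (d : ℕ)
    (hd : 1 ≤ d) (ho : ∀ g, L.ℓ g ≤ d → ∑ x ∈ bl hL (u + d), |m.m (g⁻¹ • x) - m.m x| ≤ 1)
    (κ : ℝ) (hκ : (u : ℝ) ≤ κ * d) (A : ℕ) (D : ℝ) (hD1 : 1 ≤ D) (hA : 2 * D ≤ (A : ℝ) ^ 2)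
    (hD : ((bl hL (A * u + u)).card : ℝ) ≤ D * (bl hL (A * u / 2)).card) :
    ∃ b : Γ → L2K L, (∀ g h, b (g * h) = b g + lamK L g (b h)) ∧ (∀ k ∈ L.K, b k = 0) ∧
      (∀ g, ‖b g‖ ≤ 57 * √D * (1 + L.ℓ g / d)) ∧ (∀ g, ‖b g‖ ≤ 2 * A) ∧
      (∀ g, 4 * (A * u) < L.ℓ g → ‖b g‖ = √2 * A) ∧
      ‖∑ x ∈ bl hL u, m.m x • b x.out‖ ≤ 64 * D / A ∧
      ∑ x ∈ bl hL u, m.m x * ‖b x.out‖ ^ 2 ≤ 400 * D ∧
      ((∃ g, 4 * (A * u) < L.ℓ g) →
        1 / (16 * (1 + 2 * κ) ^ 2) ≤ ∑ x ∈ bl hL u, m.m x * ‖b x.out‖ ^ 2) :=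
  exists_cocycle hsplit (regK L) m hu d hd ho κ hκ A D hD1 hA hD

end

end Vale.Agent.P151.H36
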