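import Mathlib

/-!
P151 (A), relative Gromov theorem, step (1), analytic part.  For a symmetric contraction `T` of a
real inner product space and a vector `f` there is a finite quadrature which computes all inner
products `⟪p(T) f, q(T) f⟫` with `deg p, deg q ≤ n`; the Fejér polynomial `F_n`,
`n² (1 - X) F_n = 1 - T_n`, gives an exactly finitely propagating smoothing of `f`.
-/

open Polynomial

namespace Vale.Agent.P151.H36

noncomputable section

section Quad

variable {E : Type*} [NormedAddCommGroup E] [InnerProductSpace ℝ E]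

theorem exists_quad (T : E →ₗ[ℝ] E) (hs : ∀ x y, inner ℝ (T x) y = inner ℝ x (T y))
    (hc : ∀ x, ‖T x‖ ≤ ‖x‖) (f : E) (n : ℕ) :
    ∃ (d : ℕ) (w x : Fin d → ℝ), (∀ i, 0 ≤ w i) ∧ (∀ i, |x i| ≤ 1) ∧
      ∀ p q : ℝ[X], p.natDegree ≤ n → q.natDegree ≤ n →
        inner ℝ (aeval T p f) (aeval T q f) = ∑ i, w i * (p.eval (x i) * q.eval (x i)) := by
  classical
  let K : Submodule ℝ E := Submodule.span ℝ (Set.range fun j : Fin (n + 1) => (T ^ (j : ℕ)) f)
  have : FiniteDimensional ℝ K := FiniteDimensional.span_of_finite ℝ (Set.finite_range _)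
  have hmem : ∀ j ≤ n, (T ^ j) f ∈ K := fun j hj =>
    Submodule.subset_span ⟨⟨j, Nat.lt_succ_of_le hj⟩, rfl⟩
  let π : E →L[ℝ] K := K.orthogonalProjectionOnto
  let S : K →ₗ[ℝ] K := (π : E →ₗ[ℝ] K) ∘ₗ T ∘ₗ K.subtype
  have hSx : ∀ x : K, S x = π (T x) := fun _ => rfl
  have hπ : ∀ x : K, π (x : E) = x := fun x => K.orthogonalProjectionOnto_mem_subspace_eq_self x
  have hin : ∀ (u : E) (v : K), inner ℝ (π u) v = inner ℝ u (v : E) := fun u v =>
    K.inner_orthogonalProjectionOnto_eq_of_mem_right v u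
  have hSs : S.IsSymmetric := by
    intro x y
    rw [hSx, hSx, hin, hs, ← real_inner_comm x (π (T y)), hin, real_inner_comm]
  have hf : f ∈ K := by simpa using hmem 0 (Nat.zero_le n)
  let f0 : K := ⟨f, hf⟩
  have hpow : ∀ j ≤ n, (((S ^ j) f0 : K) : E) = (T ^ j) f := by
    intro j
    induction j with
    | zero => intro _; simp [f0]
    | succ j ih =>
      intro hj
      rw [pow_succ', pow_succ', Module.End.mul_apply, Module.End.mul_apply, hSx,
        ih (Nat.le_of_succ_le hj)]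
      have h1 : T ((T ^ j) f) ∈ K := by
        have := hmem (j + 1) hj
        rwa [pow_succ', Module.End.mul_apply] at this
      exact congrArg Subtype.val (hπ ⟨_, h1⟩)
  have hpoly : ∀ p : ℝ[X], p.natDegree ≤ n → ((aeval S p f0 : K) : E) = aeval T p f := by
    intro p hp
    rw [aeval_eq_sum_range, aeval_eq_sum_range, LinearMap.sum_apply, LinearMap.sum_apply,
      AddSubmonoidClass.coe_finsetSum]
    refine Finset.sum_congr rfl fun j hj => ?_
    rw [LinearMap.smul_apply, LinearMap.smul_apply, Submodule.coe_smul,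
      hpow j ((Nat.lt_succ_iff.1 (Finset.mem_range.1 hj)).trans hp)]
  let b := hSs.eigenvectorBasis (rfl : Module.finrank ℝ K = Module.finrank ℝ K)
  let ev := hSs.eigenvalues (rfl : Module.finrank ℝ K = Module.finrank ℝ K)
  have hb : ∀ i, S (b i) = ev i • b i := fun i => hSs.apply_eigenvectorBasis rfl i
  have hbp : ∀ (p : ℝ[X]) i, aeval S p (b i) = p.eval (ev i) • b i := by
    intro p i
    induction p using Polynomial.induction_on' with
    | add p q hp hq => rw [map_add, LinearMap.add_apply, hp, hq, eval_add, add_smul]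
    | monomial j a =>
      rw [aeval_monomial, eval_monomial]
      have : ∀ j : ℕ, (S ^ j) (b i) = ev i ^ j • b i := by
        intro j
        induction j with
        | zero => simp
        | succ j ih =>
          rw [pow_succ', Module.End.mul_apply, ih, map_smul, hb, smul_smul, pow_succ]
      rw [Module.End.mul_apply, this, map_smul, Module.algebraMap_end_apply, smul_smul, mul_comm]
  have hsym : ∀ (p : ℝ[X]) (u v : K), inner ℝ (aeval S p u) v = inner ℝ u (aeval S p v) := by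
    intro p u v
    induction p using Polynomial.induction_on' with
    | add p q hp hq =>
      rw [map_add, LinearMap.add_apply, LinearMap.add_apply, inner_add_left, inner_add_right, hp,
        hq]
    | monomial j a =>
      have : ∀ (j : ℕ) (u v : K), inner ℝ ((S ^ j) u) v = inner ℝ u ((S ^ j) v) := by
        intro j
        induction j with
        | zero => intro u v; simp
        | succ j ih =>
          intro u v
          rw [pow_succ', Module.End.mul_apply, hSs, ih, ← Module.End.mul_apply, ← pow_succ,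
            pow_succ']
      rw [aeval_monomial, Module.End.mul_apply, Module.End.mul_apply,
        Module.algebraMap_end_apply, Module.algebraMap_end_apply, inner_smul_left,
        inner_smul_right, this]
      rfl
  refine ⟨_, fun i => inner ℝ (b i) f0 ^ 2, ev, fun i => sq_nonneg _, ?_, ?_⟩
  · intro i
    have h1 : ‖S (b i)‖ ≤ 1 := by
      calc ‖S (b i)‖ ≤ ‖T (b i : K)‖ := K.norm_orthogonalProjectionOnto_apply_le _
        _ ≤ ‖((b i : K) : E)‖ := hc _
        _ = 1 := b.orthonormal.1 i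
    rw [hb, norm_smul, b.orthonormal.1 i, mul_one] at h1
    exact h1
  · intro p q hp hq
    rw [← hpoly p hp, ← hpoly q hq, ← Submodule.coe_inner, ← b.sum_inner_mul_inner]
    refine Finset.sum_congr rfl fun i _ => ?_
    rw [hsym, hbp, ← real_inner_comm (b i), hsym, hbp, inner_smul_right, inner_smul_right,
      real_inner_comm (b i) f0]
    ring

end Quad

section Fejer

theorem abs_sin_nat_mul (n : ℕ) (φ : ℝ) : |Real.sin (n * φ)| ≤ n * |Real.sin φ| := by
  induction n with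
  | zero => simp
  | succ n ih =>
    have h : ((n + 1 : ℕ) : ℝ) * φ = n * φ + φ := by push_cast; ring
    rw [h, Real.sin_add]
    calc |Real.sin (n * φ) * Real.cos φ + Real.cos (n * φ) * Real.sin φ|
        ≤ |Real.sin (n * φ) * Real.cos φ| + |Real.cos (n * φ) * Real.sin φ| := abs_add_le _ _
      _ ≤ n * |Real.sin φ| * 1 + 1 * |Real.sin φ| := by
          rw [abs_mul, abs_mul]
          gcongr
          · exact Real.abs_cos_le_one _
          · exact Real.abs_cos_le_one _
      _ = ((n + 1 : ℕ) : ℝ) * |Real.sin φ| := by push_cast; ring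

/-- the Fejér polynomials -/
theorem exists_fejer (n : ℕ) (hn : 1 ≤ n) : ∃ F : ℝ[X], F.natDegree ≤ n - 1 ∧
    ((1 : ℝ[X]) - X) * F = C (((n : ℝ) ^ 2)⁻¹) * (1 - Chebyshev.T ℝ n) ∧
    (∀ x : ℝ, |x| ≤ 1 → 0 ≤ F.eval x ∧ F.eval x ≤ 1) ∧
    (∀ x : ℝ, |x| ≤ 1 → 0 ≤ (1 - x) * F.eval x ∧ (1 - x) * F.eval x ≤ 2 / (n : ℝ) ^ 2) ∧
    (∀ x : ℝ, |x| ≤ 1 → 1 - x ≤ 2 / (n : ℝ) ^ 2 → 2 / 5 ≤ F.eval x) := by
  have hn0 : (0 : ℝ) < n := by exact_mod_cast hn
  have hn2 : (0 : ℝ) < (n : ℝ) ^ 2 := by positivity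
  obtain ⟨G, hG⟩ : (X - C (1 : ℝ)) ∣ (1 - Chebyshev.T ℝ n) := by
    rw [dvd_iff_isRoot, IsRoot.def]
    simp
  set F : ℝ[X] := -(C (((n : ℝ) ^ 2)⁻¹) * G) with hF
  have hmul : ((1 : ℝ[X]) - X) * F = C (((n : ℝ) ^ 2)⁻¹) * (1 - Chebyshev.T ℝ n) := by
    rw [hG, hF, map_one]
    ring
  have hev : ∀ x : ℝ, (1 - x) * F.eval x = ((n : ℝ) ^ 2)⁻¹ * (1 - (Chebyshev.T ℝ n).eval x) := by
    intro x
    have := congrArg (eval x) hmul
    simpa using this
  have hdeg : F.natDegree ≤ n - 1 := by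
    by_cases h0 : F = 0
    · rw [h0]; simp
    have h1 : ((1 : ℝ[X]) - X) ≠ 0 := by
      intro h
      have := congrArg (eval 0) h
      simp at this
    have h2 : (((1 : ℝ[X]) - X) * F).natDegree = 1 + F.natDegree := by
      rw [natDegree_mul h1 h0]
      congr 1
      have : ((1 : ℝ[X]) - X) = -(X - C 1) := by rw [map_one]; ring
      rw [this, natDegree_neg, natDegree_X_sub_C]
    have h3 : (((1 : ℝ[X]) - X) * F).natDegree ≤ n := by
      rw [hmul]
      refine (natDegree_C_mul_le _ _).trans ((natDegree_sub_le _ _).trans ?_)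
      rw [natDegree_one]
      have : (Chebyshev.T ℝ (n : ℤ)).natDegree = n := by
        simp
      rw [this]
      simp
    omega
  -- the trigonometric form
  have htrig : ∀ x : ℝ, |x| ≤ 1 → x ≠ 1 → ∃ φ : ℝ, 0 < φ ∧ φ ≤ Real.pi / 2 ∧
      1 - x = 2 * Real.sin φ ^ 2 ∧
      F.eval x = Real.sin (n * φ) ^ 2 / ((n : ℝ) ^ 2 * Real.sin φ ^ 2) ∧ 0 < Real.sin φ := by
    intro x hx hx1
    obtain ⟨hx2, hx3⟩ := abs_le.1 hx
    have hlt : x < 1 := lt_of_le_of_ne hx3 hx1
    set θ := Real.arccos x with hθ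
    have hc : Real.cos θ = x := Real.cos_arccos hx2 hx3
    have h0 : 0 < θ := Real.arccos_pos.2 hlt
    have hpi : θ ≤ Real.pi := Real.arccos_le_pi x
    have hs : 0 < Real.sin (θ / 2) :=
      Real.sin_pos_of_pos_of_lt_pi (by linarith) (by linarith [Real.pi_pos])
    have e1 : 1 - x = 2 * Real.sin (θ / 2) ^ 2 := by
      have h := Real.cos_two_mul (θ / 2)
      rw [mul_div_cancel₀ θ (two_ne_zero), hc] at h
      have h' := Real.sin_sq_add_cos_sq (θ / 2)
      linarith
    have e2 : 1 - (Chebyshev.T ℝ n).eval x = 2 * Real.sin (n * (θ / 2)) ^ 2 := by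
      have h := Chebyshev.T_real_cos θ (n : ℤ)
      rw [hc] at h
      rw [h]
      have h1 := Real.cos_two_mul ((n : ℝ) * (θ / 2))
      have h2 : 2 * ((n : ℝ) * (θ / 2)) = ((n : ℤ) : ℝ) * θ := by push_cast; ring
      rw [h2] at h1
      rw [h1]
      have h' := Real.sin_sq_add_cos_sq ((n : ℝ) * (θ / 2))
      linarith
    refine ⟨θ / 2, by linarith, by linarith, e1, ?_, hs⟩
    have h3 := hev x
    rw [e1, e2] at h3
    have h4 : (n : ℝ) ^ 2 * ((n : ℝ) ^ 2)⁻¹ = 1 := mul_inv_cancel₀ hn2.ne'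
    rw [eq_div_iff (by positivity)]
    calc F.eval x * ((n : ℝ) ^ 2 * Real.sin (θ / 2) ^ 2)
        = (n : ℝ) ^ 2 * (2 * Real.sin (θ / 2) ^ 2 * F.eval x) / 2 := by ring
      _ = (n : ℝ) ^ 2 * ((n : ℝ) ^ 2)⁻¹ * Real.sin (n * (θ / 2)) ^ 2 := by rw [h3]; ring
      _ = Real.sin (n * (θ / 2)) ^ 2 := by rw [h4, one_mul]
  have hcont : Continuous fun x => F.eval x := F.continuous
  have hcl : ∀ (s : Set ℝ), IsClosed s → (∀ x : ℝ, 1 - 2 / (n : ℝ) ^ 2 < x → |x| ≤ 1 → x ≠ 1 →
      F.eval x ∈ s) → F.eval 1 ∈ s := by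
    intro s hs h
    have hpos : (0 : ℝ) < min (2 / (n : ℝ) ^ 2) 1 := lt_min (by positivity) one_pos
    have ht : Filter.Tendsto (fun x => F.eval x) (nhdsWithin 1 (Set.Iio 1)) (nhds (F.eval 1)) :=
      (hcont.tendsto 1).mono_left nhdsWithin_le_nhds
    refine hs.mem_of_tendsto ht ?_
    have : Set.Ioo (1 - min (2 / (n : ℝ) ^ 2) 1) 1 ∈ nhdsWithin (1 : ℝ) (Set.Iio 1) :=
      Ioo_mem_nhdsLT (by linarith)
    filter_upwards [this] with x hx
    refine h x ?_ ?_ hx.2.ne
    · have := min_le_left (2 / (n : ℝ) ^ 2) (1 : ℝ)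
      linarith [hx.1]
    · have := min_le_right (2 / (n : ℝ) ^ 2) (1 : ℝ)
      rw [abs_le]
      constructor <;> linarith [hx.1, hx.2]
  have hA : ∀ x : ℝ, |x| ≤ 1 → x ≠ 1 → 0 ≤ F.eval x ∧ F.eval x ≤ 1 := by
    intro x hx hx1
    obtain ⟨φ, -, -, -, h4, h5⟩ := htrig x hx hx1
    rw [h4]
    refine ⟨by positivity, ?_⟩
    rw [div_le_one (by positivity), ← mul_pow, ← sq_abs (Real.sin (n * φ))]
    have := abs_sin_nat_mul n φ
    rw [abs_of_pos h5] at this
    gcongr
  have hB : ∀ x : ℝ, |x| ≤ 1 → x ≠ 1 → 1 - x ≤ 2 / (n : ℝ) ^ 2 → 2 / 5 ≤ F.eval x := by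
    intro x hx hx1 hx2
    obtain ⟨φ, h1, h2, h3, h4, h5⟩ := htrig x hx hx1
    have h6 : Real.sin φ ≤ 1 / n := by
      rw [h3] at hx2
      have : Real.sin φ ^ 2 ≤ (1 / (n : ℝ)) ^ 2 := by
        rw [div_pow, one_pow]
        rw [show (2 : ℝ) / (n : ℝ) ^ 2 = 2 * (1 / (n : ℝ) ^ 2) by ring] at hx2
        linarith
      exact le_of_sq_le_sq this (by positivity)
    have h7 := Real.mul_le_sin h1.le h2
    have hpi := Real.pi_pos
    have h8 : n * φ ≤ Real.pi / 2 := by
      have : 2 / Real.pi * φ ≤ 1 / n := h7.trans h6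
      rw [div_mul_eq_mul_div, div_le_div_iff₀ hpi hn0] at this
      linarith
    have h9 := Real.mul_le_sin (x := n * φ) (by positivity) h8
    have h10 : Real.sin φ ≤ φ := Real.sin_le h1.le
    have h11 : 2 / Real.pi * (n * Real.sin φ) ≤ Real.sin (n * φ) := by
      refine le_trans ?_ h9
      gcongr
    rw [h4, le_div_iff₀ (by positivity)]
    have h12 : (2 / Real.pi * (n * Real.sin φ)) ^ 2 ≤ Real.sin (n * φ) ^ 2 := by
      gcongr
    refine le_trans ?_ h12
    rw [mul_pow, mul_pow]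
    have h13 : (2 : ℝ) / 5 ≤ (2 / Real.pi) ^ 2 := by
      rw [div_pow, div_le_div_iff₀ (by norm_num) (by positivity)]
      have := Real.pi_lt_d2
      nlinarith [Real.pi_pos]
    gcongr
  have hA' : ∀ x : ℝ, |x| ≤ 1 → 0 ≤ F.eval x ∧ F.eval x ≤ 1 := by
    intro x hx
    by_cases h : x = 1
    · rw [h]
      exact hcl (Set.Icc 0 1) isClosed_Icc fun y _ hy hy1 => hA y hy hy1
    · exact hA x hx h
  refine ⟨F, hdeg, hmul, hA', ?_, ?_⟩
  · intro x hx
    obtain ⟨hx2, hx3⟩ := abs_le.1 hx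
    refine ⟨mul_nonneg (by linarith) (hA' x hx).1, ?_⟩
    rw [hev]
    have h1 : -1 ≤ (Chebyshev.T ℝ n).eval x := by
      have h := Chebyshev.T_real_cos (Real.arccos x) (n : ℤ)
      rw [Real.cos_arccos hx2 hx3] at h
      rw [h]
      exact Real.neg_one_le_cos _
    rw [inv_mul_eq_div]
    gcongr
    linarith
  · intro x hx hx2
    by_cases h : x = 1
    · rw [h]
      refine hcl (Set.Ici (2 / 5)) isClosed_Ici fun y hy0 hy hy1 => ?_
      exact hB y hy hy1 (by linarith)
    · exact hB x hx h hx2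

end Fejer

end

end Vale.Agent.P151.H36
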