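import Vale.Agent.P151.H36.Vgk
import Vale.Agent.P151.R3.H362.Wl

/-!
P151 (A), relative Gromov theorem: the hypotheses of block A0 for a sequence of windows.
-/

open Filter Topology Pointwise

namespace Vale.Agent.P151.H36

open Vale.Agent.P151.GB Vale.Agent.P151.R3.H860 Vale.Agent.P151.RG Vale.Agent.P151.R3.H362

variable {Γ : Type} [Group Γ] {L D : Len Γ} {P : Set Γ} {w M C : ℕ}

/-- A set which is finite modulo `K` has bounded length. -/
theorem exists_len_bound (hfin : (cos L P).Finite) : ∃ r : ℕ, ∀ g ∈ P, L.ℓ g ≤ r := by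
  obtain ⟨r, hr⟩ := (hfin.image (nr L)).bddAbove
  refine ⟨r, fun g hg => ?_⟩
  have h1 : nr L (g : Γ ⧸ L.K) ≤ r := hr ⟨_, ⟨g, hg, rfl⟩, rfl⟩
  rwa [nr_mk] at h1

theorem pow_len_bound {r : ℕ} (hr : ∀ g ∈ P, L.ℓ g ≤ r) (m : ℕ) : ∀ g ∈ P ^ m, L.ℓ g ≤ m * r := by
  induction m with
  | zero =>
    intro g hg
    rw [pow_zero, Set.mem_one] at hg
    rw [hg, L.one]
    exact Nat.zero_le _
  | succ m ih =>
    intro g hg
    rw [pow_succ] at hg
    obtain ⟨x, hx, y, hy, rfl⟩ := hg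
    have h1 := L.mul x y
    have h2 := ih x hx
    have h3 := hr y hy
    rw [add_mul, one_mul]
    exact h1.trans (add_le_add h2 h3)

/-- Subexponential growth of the word length of a window. -/
theorem wlen_subE (h : WLen L P D) (hfin : (cos L P).Finite) (hL : L.Proper)
    (hs : R3.H860.SE L) (hD : D.Proper) : SubE hD := by
  obtain ⟨r, hr⟩ := exists_len_bound hfin
  intro c
  obtain ⟨m, hm⟩ := hs (c * r)
  refine ⟨m, lt_of_le_of_lt ?_ hm⟩
  rw [bl, ← Set.ncard_eq_toFinset_card _ (hD (c * m)),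
    ← Set.ncard_image_of_injective (D.ball (c * m)) (eK h).injective]
  refine Set.ncard_le_ncard ?_ (hL _)
  rintro _ ⟨_, ⟨g, hg, rfl⟩, rfl⟩
  rw [eK_mk]
  rw [Set.mem_ofPred_eq] at hg
  rw [L.mem_ball]
  rcases Nat.eq_zero_or_pos (c * m) with h0 | h0
  · rw [h0] at hg
    have h1 : L.ℓ g = 0 := (h.ker g).1 (Nat.le_zero.1 hg)
    rw [h1]
    exact Nat.zero_le _
  · have h1 := pow_len_bound hr _ g ((h.pow _ h0 g).1 hg)
    have h2 : c * m * r = c * r * m := by ring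
    rwa [h2] at h1

theorem wlen_infinite (h : WLen L P D) (hinf : Infinite (Γ ⧸ L.K)) : Infinite (Γ ⧸ D.K) :=
  (eK h).infinite_iff.2 hinf

theorem wlen_grow (h : WLen L P D) (hW : Win L P w M C) (hD : D.Proper) (m : ℕ) (h1 : 1 ≤ m)
    (h2 : m ≤ M) : (bl hD m).card ≤ C * m ^ 2 * (bl hD 1).card := by
  rw [R3.H362.card_bl h hD h1, R3.H362.card_bl h hD le_rfl, pow_one]
  exact hW.grow m h1 h2

/-- **A0 + A** for a sequence of windows in the sense of the specification. -/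
theorem seq_wcoc (hL : L.Proper) (hs : R3.H860.SE L) (hinf : Infinite (Γ ⧸ L.K)) {C c0 : ℕ}
    {P : ℕ → Set Γ} {w : ℕ → ℕ} {D : ℕ → Len Γ} (hS : Seq L C c0 P w D)
    (hD : ∀ n, (D n).Proper) :
    ∃ (J : ℕ) (u A : ℕ → ℕ) (b : ∀ n, Γ → L2K (D n)), Tendsto A atTop atTop ∧
      ∀ᶠ n in atTop, WCoc (hD n) J (u n) (A n) (b n) :=
  windows_seq D hD (fun n => wlen_subE (hS.len n) (hS.win n).fin hL hs (hD n))
    (fun n => wlen_split (hS.len n)) (fun n => wlen_infinite (hS.len n) hinf) C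
    (fun n m h1 h2 => wlen_grow (hS.len n) (hS.win n) (hD n) m h1 h2)

end Vale.Agent.P151.H36
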