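import Vale.Agent.P151.H36.A0
import Vale.Agent.P151.R3.H430.Oz2
import Vale.Agent.P151.H982.VMix

/-!
P151 (A), relative Gromov theorem: the random walk frame of a window.
-/

universe u

open Filter Topology

namespace Vale.Agent.P151.H36

open GB Vale.Agent.P151.H982 Vale.Agent.P151.R3.O

noncomputable section

variable {Γ : Type u} [Group Γ] {D : Len Γ}

/-- The base point. -/
def oK (D : Len Γ) : Γ ⧸ D.K := ((1 : Γ) : Γ ⧸ D.K)

open Classical in
/-- The neighbours of a coset: `x B(u)`. -/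
def nbK (hD : D.Proper) (u : ℕ) (x : Γ ⧸ D.K) : Finset (Γ ⧸ D.K) :=
  (bl hD u).image (fun y => x.out • y)

/-- The distance of two cosets. -/
def dK (D : Len Γ) (x y : Γ ⧸ D.K) : ℕ := D.ℓ ((x.out)⁻¹ * y.out)

theorem dK_mk (g h : Γ) : dK D (g : Γ ⧸ D.K) (h : Γ ⧸ D.K) = D.ℓ (g⁻¹ * h) := by
  obtain ⟨k, hk⟩ := QuotientGroup.mk_out_eq_mul D.K g
  obtain ⟨k', hk'⟩ := QuotientGroup.mk_out_eq_mul D.K h
  rw [dK, hk, hk']
  have e : (g * (k : Γ))⁻¹ * (h * k') = (k : Γ)⁻¹ * (g⁻¹ * h * k') := by group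
  rw [e, D.K_mul (D.K.inv_mem k.2), D.mul_K k'.2]

theorem dK_smul (g : Γ) (x y : Γ ⧸ D.K) : dK D (g • x) (g • y) = dK D x y := by
  conv_rhs => rw [dK]
  rw [smul_eq, smul_eq, dK_mk]
  congr 1
  group

theorem dK_symm (x y : Γ ⧸ D.K) : dK D x y = dK D y x := by
  rw [dK, dK, ← D.inv]
  congr 1
  group

theorem dK_self (x : Γ ⧸ D.K) : dK D x x = 0 := by
  rw [dK, inv_mul_cancel, D.one]

theorem dK_tri (x y z : Γ ⧸ D.K) : dK D x z ≤ dK D x y + dK D y z := by
  have h := D.mul ((x.out)⁻¹ * y.out) ((y.out)⁻¹ * z.out)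
  have e : (x.out)⁻¹ * y.out * ((y.out)⁻¹ * z.out) = (x.out)⁻¹ * z.out := by group
  rw [e] at h
  exact h

theorem dK_oK (x : Γ ⧸ D.K) : dK D (oK D) x = nr D x := by
  conv_lhs => rw [← QuotientGroup.out_eq' x]
  rw [oK, dK_mk, inv_one, one_mul]
  rfl

theorem dK_split (hsp : Split D) (x y : Γ ⧸ D.K) (a b : ℕ) (h : dK D x y ≤ a + b) :
    ∃ z, dK D x z ≤ a ∧ dK D z y ≤ b := by
  obtain ⟨s, t, e, hs, ht⟩ := hsp _ a b h
  refine ⟨((x.out * s : Γ) : Γ ⧸ D.K), ?_, ?_⟩
  · have h1 : dK D x ((x.out * s : Γ) : Γ ⧸ D.K) = D.ℓ s := by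
      conv_lhs => rw [← QuotientGroup.out_eq' x]
      rw [dK_mk]
      congr 1
      rw [QuotientGroup.out_eq']
      group
    rw [h1]
    exact hs
  · have h1 : dK D ((x.out * s : Γ) : Γ ⧸ D.K) y = D.ℓ t := by
      conv_lhs => rw [← QuotientGroup.out_eq' y]
      rw [dK_mk]
      congr 1
      have e2 : y.out = x.out * (s * t) := by rw [← e]; group
      rw [e2]
      group
    rw [h1]
    exact ht

theorem mem_nbK {hD : D.Proper} {u : ℕ} {x y : Γ ⧸ D.K} : y ∈ nbK hD u x ↔ dK D x y ≤ u := by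
  classical
  rw [nbK, Finset.mem_image, dK, ← nr_smul_eq]
  constructor
  · rintro ⟨z, hz, rfl⟩
    rw [inv_smul_smul]
    exact (mem_bl hD).1 hz
  · intro h
    exact ⟨_, (mem_bl hD).2 h, smul_inv_smul _ _⟩

theorem card_nbK (hD : D.Proper) (u : ℕ) (x : Γ ⧸ D.K) : (nbK hD u x).card = (bl hD u).card := by
  classical
  exact Finset.card_image_of_injective _ (MulAction.injective _)

theorem nbK_oK (hD : D.Proper) (u : ℕ) : nbK hD u (oK D) = bl hD u := by
  ext y
  rw [mem_nbK, dK_oK, mem_bl]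

/-- The frame of `H982`. -/
theorem vgK (hD : D.Proper) (hsp : Split D) {u : ℕ} (hu : 1 ≤ u) : VG Γ (nbK hD u) (oK D) where
  self := by
    intro x
    rw [mem_nbK, dK_self]
    exact Nat.zero_le _
  symm := by
    intro x y h
    rw [mem_nbK] at h ⊢
    rwa [dK_symm]
  equiv := by
    intro g x y h
    rw [mem_nbK] at h ⊢
    rwa [dK_smul]
  trans := by
    intro x
    refine ⟨x.out, ?_⟩
    conv_rhs => rw [← QuotientGroup.out_eq' x]
    change ((x.out * 1 : Γ) : Γ ⧸ D.K) = _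
    rw [mul_one]
  conn := by
    have h1 : ∀ n, ∀ x : Γ ⧸ D.K, dK D (oK D) x ≤ n →
        Relation.ReflTransGen (fun a b => b ∈ nbK hD u a) (oK D) x := by
      intro n
      induction n with
      | zero =>
        intro x hx
        refine Relation.ReflTransGen.single ?_
        rw [mem_nbK]
        omega
      | succ n ih =>
        intro x hx
        obtain ⟨z, hz1, hz2⟩ := dK_split hsp _ _ n 1 hx
        refine (ih z hz1).tail ?_
        rw [mem_nbK]
        omega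
    exact fun x => h1 _ x le_rfl

/-- The vertices reachable in `k` steps. -/
theorem mem_rbK (hD : D.Proper) (hsp : Split D) (u k : ℕ) (x y : Γ ⧸ D.K) :
    y ∈ rb (nbK hD u) k x ↔ dK D x y ≤ k * u := by
  induction k generalizing x with
  | zero =>
    rw [rb_zero, Finset.mem_singleton, zero_mul, Nat.le_zero]
    constructor
    · rintro rfl
      exact dK_self _
    · intro h
      have h1 : (x.out)⁻¹ * y.out ∈ D.K := h
      have h2 := QuotientGroup.eq.2 h1
      rw [QuotientGroup.out_eq', QuotientGroup.out_eq'] at h2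
      exact h2.symm
  | succ k ih =>
    rw [mem_rb_succ]
    constructor
    · rintro ⟨z, hz, h⟩
      rw [mem_nbK] at hz
      rw [ih] at h
      have := dK_tri x z y
      rw [add_mul, one_mul]
      omega
    · intro h
      obtain ⟨z, hz1, hz2⟩ := dK_split hsp x y u (k * u) (by rw [add_mul, one_mul] at h; omega)
      exact ⟨z, mem_nbK.2 hz1, (ih z).2 hz2⟩

theorem rbK_oK (hD : D.Proper) (hsp : Split D) (u k : ℕ) :
    rb (nbK hD u) k (oK D) = bl hD (k * u) := by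
  ext y
  rw [mem_rbK hD hsp, dK_oK, mem_bl]

/-- Overlap of neighbourhoods. -/
theorem overlap_nbK [DecidableEq (Γ ⧸ D.K)] (hD : D.Proper) {u : ℕ}
    (h : 4 * (bl hD (u + 1)).card ≤ 5 * (bl hD u).card) (g : Γ) (hg : D.ℓ g ≤ 1) :
    3 * (nbK hD u (oK D)).card ≤ 4 * (nbK hD u (oK D) ∩ nbK hD u (g • oK D)).card := by
  have h1 : nbK hD u (oK D) ∪ nbK hD u (g • oK D) ⊆ bl hD (u + 1) := by
    intro y hy
    rw [mem_bl, ← dK_oK]
    rcases Finset.mem_union.1 hy with hy | hy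
    · rw [mem_nbK] at hy
      omega
    · rw [mem_nbK] at hy
      have h2 := dK_tri (oK D) (g • oK D) y
      have h3 : dK D (oK D) (g • oK D) = D.ℓ g := by
        have e : g • oK D = ((g : Γ) : Γ ⧸ D.K) := by
          change ((g * 1 : Γ) : Γ ⧸ D.K) = _
          rw [mul_one]
        rw [e, oK, dK_mk, inv_one, one_mul]
      omega
  have h2 := Finset.card_le_card h1
  have h3 := Finset.card_union_add_card_inter (nbK hD u (oK D)) (nbK hD u (g • oK D))
  rw [card_nbK, card_nbK] at h3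
  rw [card_nbK]
  omega

section cocycle

variable {hD : D.Proper} {J u A : ℕ} {b : Γ → L2K D}

/-- The cocycle as a function on the cosets. -/
def FK (b : Γ → L2K D) (x : Γ ⧸ D.K) : L2K D := b x.out

theorem WCoc.mulK (h : WCoc hD J u A b) : ∀ g, ∀ k ∈ D.K, b (g * k) = b g := by
  intro g k hk
  rw [h.coc, h.ker k hk, map_zero, add_zero]

theorem WCoc.FK_mk (h : WCoc hD J u A b) (g : Γ) : FK b (g : Γ ⧸ D.K) = b g :=
  out_mk D b h.mulK g

theorem WCoc.FK_smul (h : WCoc hD J u A b) (g : Γ) (x : Γ ⧸ D.K) :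
    FK b (g • x) = b g + lamK D g (FK b x) := by
  change FK b (g • x) = b g + lamK D g (b x.out)
  rw [← h.coc]
  exact out_smul D b h.mulK g x

theorem WCoc.FK_oK (h : WCoc hD J u A b) : FK b (oK D) = 0 := by
  rw [oK, h.FK_mk]
  exact h.ker 1 D.K.one_mem

theorem WCoc.FK_smul_oK (h : WCoc hD J u A b) (g : Γ) : FK b (g • oK D) = b g := by
  rw [h.FK_smul, h.FK_oK, map_zero, add_zero]

theorem WCoc.equi (h : WCoc hD J u A b) : Equi (lamK D) (FK b) := by
  intro g x y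
  rw [h.FK_smul, h.FK_smul, map_sub]
  abel

theorem WCoc.norm_sub_le (h : WCoc hD J u A b) (x y : Γ ⧸ D.K) :
    ‖FK b y - FK b x‖ ≤ 650 * dK D x y := by
  have h1 : FK b y = b x.out + lamK D x.out (b ((x.out)⁻¹ * y.out)) := by
    rw [← h.coc, mul_inv_cancel_left]
    rfl
  have h2 : FK b y - FK b x = lamK D x.out (b ((x.out)⁻¹ * y.out)) := by
    rw [h1]
    exact add_sub_cancel_left _ _
  rw [h2, (lamK D x.out).norm_map]
  exact h.lip _

theorem WCoc.norm_edge_le (h : WCoc hD J u A b) (x y : Γ ⧸ D.K) (hy : y ∈ nbK hD u x) :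
    ‖FK b y - FK b x‖ ≤ 650 * J := by
  rw [mem_nbK] at hy
  refine (h.norm_sub_le x y).trans ?_
  have h1 : dK D x y ≤ J := hy.trans h.u_le
  have h2 : (dK D x y : ℝ) ≤ J := by exact_mod_cast h1
  linarith

theorem WCoc.drift' (h : WCoc hD J u A b) :
    ‖((nbK hD u (oK D)).card : ℝ)⁻¹ • ∑ y ∈ nbK hD u (oK D), (FK b y - FK b (oK D))‖ ≤
      2048 / A := by
  have h1 : ((nbK hD u (oK D)).card : ℝ)⁻¹ • ∑ y ∈ nbK hD u (oK D), (FK b y - FK b (oK D)) =
      ∑ x ∈ bl hD u, um hD u x • b x.out := by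
    rw [card_nbK, nbK_oK, Finset.smul_sum]
    refine Finset.sum_congr rfl fun x hx => ?_
    rw [h.FK_oK, sub_zero, um_of_mem hD u hx]
    rfl
  rw [h1]
  exact h.drift

theorem WCoc.sg_eq (h : WCoc hD J u A b) :
    sg (nbK hD u) (FK b) (oK D) = ∑ x ∈ bl hD u, um hD u x * ‖b x.out‖ ^ 2 := by
  rw [sg, H982.av, card_nbK, nbK_oK, Finset.mul_sum]
  refine Finset.sum_congr rfl fun x hx => ?_
  rw [h.FK_oK, sub_zero, um_of_mem hD u hx]
  rfl

theorem WCoc.sg_le (h : WCoc hD J u A b) : sg (nbK hD u) (FK b) (oK D) ≤ 12800 := by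
  rw [h.sg_eq]
  exact h.energy_le

theorem WCoc.sg_ge (h : WCoc hD J u A b) :
    1 / (16 * (1 + 2 * (J : ℝ)) ^ 2) ≤ sg (nbK hD u) (FK b) (oK D) := by
  rw [h.sg_eq]
  exact h.energy_ge

end cocycle

end

end Vale.Agent.P151.H36
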